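import Vale.Agent.P204.Full.Final.Norm

/-!
The pointwise inequality behind the intersection identity.
-/

open scoped Manifold ContDiff Topology
open MeasureTheory Set Filter

noncomputable section

namespace Vale.Agent.P204.Full.Final

universe u

variable {X : Type u} [TopologicalSpace X] [ChartedSpace R4 X] [IsManifold 𝓘(ℝ, R4) ∞ X]
  [MeasurableSpace X] {G : Geo X}

/-- The product of two almost semipositive invariant values is almost nonnegative. -/
theorem lower_product (hP : PointFacts G) (hB : BaseFacts G) :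
    ∃ C : ℝ, 1 ≤ C ∧ ∀ (x : X) (a b : Bil) (u v : ℝ), IsAlt a → IsAlt b → 0 ≤ u → 0 ≤ v →
      G.PosAt x (a + u • G.omega x) → G.PosAt x (b + v • G.omega x) →
        -(C * (u * G.nrmVal x b + v * G.nrmVal x a + u * v)) ≤ G.W x a b := by
  obtain ⟨C2, hC2, h2⟩ := hP.pos_nrm
  obtain ⟨C3, h3⟩ := hP.W_bound
  refine ⟨max 1 (max C3 0 * C2), le_max_left _ _, fun x a b u v ha hb hu hv hpa hpb => ?_⟩
  have h := hP.pos_W x _ _ hpa hpb
  rw [G.W_add_left, G.W_add_right, G.W_add_right, G.W_smul_left, G.W_smul_left, G.W_smul_right,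
    G.W_smul_right, hP.W_omega, mul_one] at h
  have hom : G.nrmVal x (G.omega x) ≤ C2 := by
    have := h2 x _ (hP.omega_at x)
    rwa [hP.W_omega x, mul_one] at this
  set C := max 1 (max C3 0 * C2) with hCdef
  have hwb : ∀ c : Bil, IsAlt c → |G.W x c (G.omega x)| ≤ C * G.nrmVal x c := by
    intro c hc
    refine (h3 x c _ hc (hP.omega_at x).1.1).trans ?_
    have hc0 := nrmVal_nonneg hB x c
    calc C3 * G.nrmVal x c * G.nrmVal x (G.omega x)
        ≤ max C3 0 * G.nrmVal x c * G.nrmVal x (G.omega x) :=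
          mul_le_mul_of_nonneg_right (mul_le_mul_of_nonneg_right (le_max_left _ _) hc0)
            (nrmVal_nonneg hB x _)
      _ ≤ max C3 0 * G.nrmVal x c * C2 := mul_le_mul_of_nonneg_left hom (by positivity)
      _ = max C3 0 * C2 * G.nrmVal x c := by ring
      _ ≤ C * G.nrmVal x c := mul_le_mul_of_nonneg_right (le_max_right _ _) hc0
  have h1 : v * G.W x a (G.omega x) ≤ v * (C * G.nrmVal x a) :=
    mul_le_mul_of_nonneg_left ((le_abs_self _).trans (hwb a ha)) hv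
  have h4 : u * G.W x (G.omega x) b ≤ u * (C * G.nrmVal x b) := by
    rw [G.W_comm]
    exact mul_le_mul_of_nonneg_left ((le_abs_self _).trans (hwb b hb)) hu
  have h5 : u * v ≤ C * (u * v) := le_mul_of_one_le_left (mul_nonneg hu hv) (le_max_left _ _)
  nlinarith [h, h1, h4, h5]

/-- The error terms of the pointwise identity. -/
theorem error_terms {C4 N K s mR m η P : ℝ} (hC4 : 0 ≤ C4) (hN : 0 ≤ N) (hs : 0 ≤ s) (hs1 : s ≤ 1)
    (hmR : 0 ≤ mR) (hmm : mR ≤ m) (hη : 0 ≤ η) (hK : 0 ≤ K)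
    (hP : P = K ^ 2 * (s ^ 2 * (mR * m) + s ^ 2 * η ^ 2 + s * (η * m))) {p q : ℝ}
    (hp : p ≤ K * mR) (hq : q ≤ K * m) :
    let e := K * s ^ 2 * mR
    let f := K * s ^ 2 * m
    C4 * (e * p + e * p + e * e) + C4 * (e * q + f * p + e * f) +
      2 * (N * (K * mR * (K * s * η))) + N * (K * s * η * (K * s * η)) +
      N * (K * s * η * (K * m)) + N * (K * s * mR * (K * s * m)) + N * (K * η * (K * s * m)) ≤
      10 * (C4 + N) * P := by
  intro e f
  have hm : 0 ≤ m := hmR.trans hmm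
  have hsq : s ^ 2 ≤ 1 := by nlinarith
  have hmm2 : mR * mR ≤ mR * m := mul_le_mul_of_nonneg_left hmm hmR
  have p1 : 0 ≤ K ^ 2 * (s ^ 2 * (mR * m)) := by positivity
  have p2 : 0 ≤ K ^ 2 * (s ^ 2 * η ^ 2) := by positivity
  have p3 : 0 ≤ K ^ 2 * (s * (η * m)) := by positivity
  have a1 : e * p ≤ P := by
    calc e * p ≤ e * (K * mR) := mul_le_mul_of_nonneg_left hp (by positivity)
      _ = K ^ 2 * (s ^ 2 * (mR * mR)) := by ring
      _ ≤ K ^ 2 * (s ^ 2 * (mR * m)) := by gcongr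
      _ ≤ P := by rw [hP]; linarith
  have a2 : e * e ≤ P := by
    calc e * e = K ^ 2 * (s ^ 2 * (s ^ 2 * (mR * mR))) := by ring
      _ ≤ K ^ 2 * (1 * (s ^ 2 * (mR * m))) := by gcongr
      _ ≤ P := by rw [hP]; linarith
  have a3 : e * q ≤ P := by
    calc e * q ≤ e * (K * m) := mul_le_mul_of_nonneg_left hq (by positivity)
      _ = K ^ 2 * (s ^ 2 * (mR * m)) := by ring
      _ ≤ P := by rw [hP]; linarith
  have a4 : f * p ≤ P := by
    calc f * p ≤ f * (K * mR) := mul_le_mul_of_nonneg_left hp (by positivity)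
      _ = K ^ 2 * (s ^ 2 * (mR * m)) := by ring
      _ ≤ P := by rw [hP]; linarith
  have a5 : e * f ≤ P := by
    calc e * f = K ^ 2 * (s ^ 2 * (s ^ 2 * (mR * m))) := by ring
      _ ≤ K ^ 2 * (1 * (s ^ 2 * (mR * m))) := by gcongr
      _ ≤ P := by rw [hP]; linarith
  have v1 : K * mR * (K * s * η) ≤ P := by
    calc K * mR * (K * s * η) = K ^ 2 * (s * (η * mR)) := by ring
      _ ≤ K ^ 2 * (s * (η * m)) := by gcongr
      _ ≤ P := by rw [hP]; linarith
  have v2 : K * s * η * (K * s * η) ≤ P := by rw [hP]; linarith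
  have v3 : K * s * η * (K * m) ≤ P := by rw [hP]; linarith
  have v4 : K * s * mR * (K * s * m) ≤ P := by rw [hP]; linarith
  have v5 : K * η * (K * s * m) ≤ P := by rw [hP]; linarith
  have hP0 : 0 ≤ P := by rw [hP]; linarith
  have w1 : C4 * (e * p + e * p + e * e) ≤ C4 * (3 * P) :=
    mul_le_mul_of_nonneg_left (by linarith) hC4
  have w2 : C4 * (e * q + f * p + e * f) ≤ C4 * (3 * P) :=
    mul_le_mul_of_nonneg_left (by linarith) hC4
  have x1 := mul_le_mul_of_nonneg_left v1 hN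
  have x2 := mul_le_mul_of_nonneg_left v2 hN
  have x3 := mul_le_mul_of_nonneg_left v3 hN
  have x4 := mul_le_mul_of_nonneg_left v4 hN
  have x5 := mul_le_mul_of_nonneg_left v5 hN
  have y1 : 0 ≤ C4 * P := by positivity
  have y2 : 0 ≤ N * P := by positivity
  linarith

/-- The pointwise form of the intersection inequality: `X = R + Q`, `Y` the closed part. -/
theorem pointwise_key (hP : PointFacts G) (hB : BaseFacts G) :
    ∃ C c : ℝ, 0 < c ∧ 0 ≤ C ∧ ∀ (x : X) (R Q Y : Bil) (s mR m η K : ℝ),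
      IsAlt R → IsAlt Q → IsAlt Y → 0 ≤ s → s ≤ 1 → 0 ≤ mR → mR ≤ m → 0 ≤ η → 1 ≤ K →
      G.nrmVal x (inv11 (G.J x) R) ≤ K * mR → G.nrmVal x (anti20 (G.J x) R) ≤ K * s * mR →
      G.nrmVal x (inv11 (G.J x) Y) ≤ K * m → G.nrmVal x (anti20 (G.J x) Y) ≤ K * s * m →
      G.nrmVal x (inv11 (G.J x) Q) ≤ K * s * η → G.nrmVal x (anti20 (G.J x) Q) ≤ K * η →
      G.PosAt x (inv11 (G.J x) R + (K * s ^ 2 * mR) • G.omega x) →
      G.PosAt x (inv11 (G.J x) Y + (K * s ^ 2 * m) • G.omega x) →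
        c * G.nrmVal x (anti20 (G.J x) (R + Q)) ^ 2 ≤
          G.W x (R + Q) (R + Q) + G.W x (R + Q) Y +
            C * K ^ 2 * (s ^ 2 * (mR * m) + s ^ 2 * η ^ 2 + s * (η * m)) := by
  obtain ⟨C1, hC1, h1⟩ := hP.W_anti
  obtain ⟨C3, h3⟩ := hP.W_bound
  obtain ⟨C4, hC4, h4⟩ := lower_product hP hB
  refine ⟨10 * (C4 + max C3 0), 1 / C1, by positivity, by positivity, ?_⟩
  intro x R Q Y s mR m η K hR hQ hY hs hs1 hmR hmm hη hK hR1 hR2 hY1 hY2 hQ1 hQ2 hpR hpY
  have iR := hP.inv11_at x R hR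
  have iQ := hP.inv11_at x Q hQ
  have iY := hP.inv11_at x Y hY
  have aR := hP.anti20_at x R hR
  have aQ := hP.anti20_at x Q hQ
  have aY := hP.anti20_at x Y hY
  set AR := inv11 (G.J x) R
  set AQ := inv11 (G.J x) Q
  set AY := inv11 (G.J x) Y
  set BR := anti20 (G.J x) R with hBR
  set BQ := anti20 (G.J x) Q
  set BY := anti20 (G.J x) Y
  set N := max C3 0 with hN
  have hN0 : 0 ≤ N := le_max_right _ _
  have hm : 0 ≤ m := hmR.trans hmm
  have hW : ∀ (a b : Bil) (p q : ℝ), IsAlt a → IsAlt b → G.nrmVal x a ≤ p → G.nrmVal x b ≤ q →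
      -(N * (p * q)) ≤ G.W x a b := by
    intro a b p q ha hb hp hq
    have h0 := (abs_le.1 (h3 x a b ha hb)).1
    have hn := nrmVal_nonneg hB x a
    have hn' := nrmVal_nonneg hB x b
    have h5 : C3 * G.nrmVal x a * G.nrmVal x b ≤ N * (p * q) := by
      calc C3 * G.nrmVal x a * G.nrmVal x b ≤ N * G.nrmVal x a * G.nrmVal x b :=
            mul_le_mul_of_nonneg_right (mul_le_mul_of_nonneg_right (le_max_left _ _) hn) hn'
        _ = N * (G.nrmVal x a * G.nrmVal x b) := by ring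
        _ ≤ _ := mul_le_mul_of_nonneg_left (mul_le_mul hp hq hn' (hn.trans hp)) hN0
    linarith
  set e := K * s ^ 2 * mR with he
  set f := K * s ^ 2 * m with hf
  have he0 : 0 ≤ e := by positivity
  have hf0 : 0 ≤ f := by positivity
  have tRR := h4 x AR AR e e iR.1 iR.1 he0 he0 hpR hpR
  have tRY := h4 x AR AY e f iR.1 iY.1 he0 hf0 hpR hpY
  have tRQ := hW AR AQ _ _ iR.1 iQ.1 hR1 hQ1
  have tQQ := hW AQ AQ _ _ iQ.1 iQ.1 hQ1 hQ1
  have tQY := hW AQ AY _ _ iQ.1 iY.1 hQ1 hY1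
  have tBR := hW BR BY _ _ aR.1 aY.1 hR2 hY2
  have tBQ := hW BQ BY _ _ aQ.1 aY.1 hQ2 hY2
  have tB := h1 x _ (hP.anti20_at x (R + Q) (hR.add hQ))
  have hexp : G.W x (R + Q) (R + Q) + G.W x (R + Q) Y =
      G.W x AR AR + 2 * G.W x AR AQ + G.W x AQ AQ +
        G.W x (anti20 (G.J x) (R + Q)) (anti20 (G.J x) (R + Q)) +
        G.W x AR AY + G.W x AQ AY + G.W x BR BY + G.W x BQ BY := by
    rw [W_split hP x (hR.add hQ) (hR.add hQ), W_split hP x (hR.add hQ) hY, inv11_add,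
      anti20_add]
    simp only [G.W_add_left, G.W_add_right]
    rw [G.W_comm x (inv11 (G.J x) Q) (inv11 (G.J x) R)]
    ring
  rw [hexp]
  have hcB : 1 / C1 * G.nrmVal x (anti20 (G.J x) (R + Q)) ^ 2 ≤
      G.W x (anti20 (G.J x) (R + Q)) (anti20 (G.J x) (R + Q)) := by
    rw [one_div, inv_mul_le_iff₀ hC1]
    exact tB
  have herr := error_terms (P := K ^ 2 * (s ^ 2 * (mR * m) + s ^ 2 * η ^ 2 + s * (η * m)))
    (zero_le_one.trans hC4) hN0 hs hs1 hmR hmm hη (zero_le_one.trans hK) rfl hR1 hY1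
  simp only at herr
  rw [← he, ← hf] at herr
  linarith only [hcB, tRR, tRY, tRQ, tQQ, tQY, tBR, tBQ, herr]

end Vale.Agent.P204.Full.Final
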