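import Vale.Agent.P204.Full.Final.Norm

/-!
Pointwise bounds for a smooth form from its pairings with small test forms.
-/

open scoped Manifold ContDiff Topology
open MeasureTheory Set Filter

noncomputable section

namespace Vale.Agent.P204.Full.Final

universe u

variable {X : Type u} [TopologicalSpace X] [T2Space X] [CompactSpace X] [ChartedSpace R4 X]
  [IsManifold 𝓘(ℝ, R4) ∞ X] [MeasurableSpace X] [BorelSpace X] {G : Geo X}

theorem integrable_of_cont (hB : BaseFacts G) {f : X → ℝ} (hf : Continuous f) :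
    Integrable f G.vol :=
  have := hB.vol_finite
  hf.integrable_of_hasCompactSupport (HasCompactSupport.of_compactSpace _)

/-- A test by the multiples of one field. -/
theorem W_le_of_tested (hB : BaseFacts G) {F D : X → Bil} (hF : Smooth2 F) (hD : Smooth2 D)
    (x : X) {U : Set X} (hU : U ∈ 𝓝 x) (a : ℝ)
    (h : ∀ f : X → ℝ, ContMDiff 𝓘(ℝ, R4) 𝓘(ℝ, ℝ) ∞ f → (∀ z, 0 ≤ f z) →
      Function.support f ⊆ U →
        G.pair F (fun z => f z • D z) ≤ a * ∫ z, G.nrm2 (fun z => f z • D z) z ∂G.vol) :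
    G.W x (F x) (D x) ≤ a * G.nrm2 D x := by
  have hcD := hB.smooth_cont D hD
  have hW := hB.W_cont F D (hB.smooth_cont F hF) hcD
  have hN := hB.nrm2_cont D hcD
  have key := nonneg_of_tested hB (φ := fun z => a * G.nrm2 D z - G.W z (F z) (D z))
    ((continuous_const.mul hN).sub hW) x hU ?_
  · exact sub_nonneg.1 key
  intro f hfs hf0 hfU
  have h1 := h f hfs hf0 hfU
  have hfc : Continuous f := hfs.continuous
  have e1 : G.pair F (fun z => f z • D z) = ∫ z, f z * G.W z (F z) (D z) ∂G.vol := by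
    simp only [Geo.pair, G.W_smul_right]
  have e2 : ∫ z, G.nrm2 (fun z => f z • D z) z ∂G.vol = ∫ z, f z * G.nrm2 D z ∂G.vol := by
    congr 1
    funext z
    rw [nrm2_smul_fun D f z hB, abs_of_nonneg (hf0 z)]
  rw [e1, e2, ← integral_const_mul] at h1
  have i1 : Integrable (fun z => a * (f z * G.nrm2 D z)) G.vol :=
    integrable_of_cont hB (continuous_const.mul (hfc.mul hN))
  have i2 : Integrable (fun z => f z * G.W z (F z) (D z)) G.vol :=
    integrable_of_cont hB (hfc.mul hW)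
  calc (0 : ℝ) ≤ (∫ z, a * (f z * G.nrm2 D z) ∂G.vol) - ∫ z, f z * G.W z (F z) (D z) ∂G.vol :=
        sub_nonneg.2 h1
    _ = ∫ z, f z * (a * G.nrm2 D z - G.W z (F z) (D z)) ∂G.vol := by
        rw [← integral_sub i1 i2]
        congr 1
        funext z
        ring

/-- Bound on the invariant part from invariant tests. -/
theorem inv_part_le (hP : PointFacts G) (hB : BaseFacts G) :
    ∃ C : ℝ, ∀ F : X → Bil, Smooth2 F → ∀ (x : X) (U : Set X), U ∈ 𝓝 x → ∀ a : ℝ, 0 ≤ a →
      (∀ θ, Smooth2 θ → G.Inv θ → (∀ z, z ∉ U → θ z = 0) →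
        G.pair F θ ≤ a * ∫ z, G.nrm2 θ z ∂G.vol) →
      G.nrm2 (G.p11 F) x ≤ C * a := by
  obtain ⟨C1, hC1, h1⟩ := hP.W_inv
  obtain ⟨C2, hC2, h2⟩ := hP.pos_nrm
  obtain ⟨C3, h3⟩ := hP.W_bound
  refine ⟨C1 * (2 * max C3 0 * C2 * C2 + 1), fun F hF x U hU a ha h => ?_⟩
  obtain ⟨hA, hAi⟩ := hB.p11_smooth F hF
  set A := G.p11 F with hAdef
  let D : X → Bil := fun z => (2 * G.W z (A z) (G.omega z)) • G.omega z - A z
  have hw : ContMDiff 𝓘(ℝ, R4) 𝓘(ℝ, ℝ) ∞ fun z => 2 * G.W z (A z) (G.omega z) :=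
    contMDiff_const.mul (hB.W_smooth A G.omega hA G.omega_smooth)
  have hDs : Smooth2 D := (hB.smul2 _ G.omega hw G.omega_smooth).sub hA
  have hDi : G.Inv D := inv_sub (inv_smul_fun G.omega_inv _) hAi
  have key := W_le_of_tested hB hF hDs x hU a fun f hfs hf0 hfU =>
    h _ (hB.smul2 f D hfs hDs) (inv_smul_fun hDi f) fun z hz => by
      have : f z = 0 := by
        by_contra hne
        exact hz (hfU hne)
      simp [this]
  rw [nrm2_val hB] at key ⊢
  set p := G.nrmVal x (A x) with hp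
  have hp0 : 0 ≤ p := nrmVal_nonneg hB x _
  have eW : G.W x (F x) (D x) = 2 * G.W x (A x) (G.omega x) ^ 2 - G.W x (A x) (A x) := by
    have hd1 : inv11 (G.J x) (D x) = D x := inv11_of_inv (G.J x) (G.inv_pull hDi x)
    have hd2 : anti20 (G.J x) (D x) = 0 := anti20_of_inv (G.J x) (G.inv_pull hDi x)
    rw [W_split hP x (hF.1 x) (hDs.1 x), hd1, hd2]
    show G.W x (A x) (D x) + G.W x (anti20 (G.J x) (F x)) 0 = _
    have hz : G.W x (anti20 (G.J x) (F x)) 0 = 0 := by
      rw [← zero_smul ℝ (G.omega x), G.W_smul_right, zero_mul]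
    have hd : D x = (2 * G.W x (A x) (G.omega x)) • G.omega x + (-1 : ℝ) • A x := by
      rw [neg_one_smul, ← sub_eq_add_neg]
    rw [hz, add_zero, hd, G.W_add_right, G.W_smul_right, G.W_smul_right]
    ring
  have hom : G.nrmVal x (G.omega x) ≤ C2 := by
    have := h2 x _ (hP.omega_at x)
    rw [hP.W_omega x, mul_one] at this
    exact this
  have hom0 : 0 ≤ G.nrmVal x (G.omega x) := nrmVal_nonneg hB x _
  have hWw : |G.W x (A x) (G.omega x)| ≤ max C3 0 * p * C2 := by
    refine (h3 x _ _ (hA.1 x) (G.omega_smooth.1 x)).trans ?_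
    calc C3 * p * G.nrmVal x (G.omega x) ≤ max C3 0 * p * G.nrmVal x (G.omega x) :=
          mul_le_mul_of_nonneg_right (mul_le_mul_of_nonneg_right (le_max_left _ _) hp0) hom0
      _ ≤ _ := mul_le_mul_of_nonneg_left hom (by positivity)
  have hD : G.nrmVal x (D x) ≤ (2 * max C3 0 * C2 * C2 + 1) * p := by
    have hd : D x = (2 * G.W x (A x) (G.omega x)) • G.omega x + -A x := sub_eq_add_neg _ _
    rw [hd]
    refine (nrmVal_add_le hB x _ _).trans ?_
    rw [nrmVal_smul hB, nrmVal_neg hB, abs_mul, abs_two]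
    have hb : 2 * |G.W x (A x) (G.omega x)| * G.nrmVal x (G.omega x) ≤
        2 * (max C3 0 * p * C2) * C2 :=
      mul_le_mul (by linarith) hom hom0 (by positivity)
    linarith
  have hq : p ^ 2 ≤ C1 * (a * ((2 * max C3 0 * C2 * C2 + 1) * p)) := by
    have h' := h1 x _ (inv_at hA.1 hAi x)
    rw [← eW] at h'
    exact h'.trans (mul_le_mul_of_nonneg_left (key.trans (mul_le_mul_of_nonneg_left hD ha)) hC1.le)
  rcases hp0.eq_or_lt with hz | hlt
  · rw [← hz]
    positivity
  · have : p * p ≤ C1 * (2 * max C3 0 * C2 * C2 + 1) * a * p := by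
      calc p * p = p ^ 2 := by ring
        _ ≤ _ := hq
        _ = _ := by ring
    exact le_of_mul_le_mul_right this hlt

/-- Bound on the anti-invariant part from anti-invariant tests. -/
theorem anti_part_le (hP : PointFacts G) (hB : BaseFacts G) :
    ∃ C : ℝ, ∀ F : X → Bil, Smooth2 F → ∀ (x : X) (U : Set X), U ∈ 𝓝 x → ∀ a : ℝ, 0 ≤ a →
      (∀ θ, Smooth2 θ → G.Anti θ → (∀ z, z ∉ U → θ z = 0) →
        G.pair F θ ≤ a * ∫ z, G.nrm2 θ z ∂G.vol) →
      G.nrm2 (G.p20 F) x ≤ C * a := by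
  obtain ⟨C1, hC1, h1⟩ := hP.W_anti
  refine ⟨C1, fun F hF x U hU a ha h => ?_⟩
  obtain ⟨hBs, hBa⟩ := hB.p20_smooth F hF
  set B := G.p20 F with hBdef
  have key := W_le_of_tested hB hF hBs x hU a fun f hfs hf0 hfU =>
    h _ (hB.smul2 f B hfs hBs) (anti_smul_fun hBa f) fun z hz => by
      have : f z = 0 := by
        by_contra hne
        exact hz (hfU hne)
      simp [this]
  rw [nrm2_val hB] at key ⊢
  set p := G.nrmVal x (B x) with hp
  have hp0 : 0 ≤ p := nrmVal_nonneg hB x _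
  have hd1 : inv11 (G.J x) (B x) = 0 := inv11_of_anti (G.J x) (G.anti_pull hBa x)
  have hd2 : anti20 (G.J x) (B x) = B x := anti20_of_anti (G.J x) (G.anti_pull hBa x)
  have hz : G.W x (inv11 (G.J x) (F x)) 0 = 0 := by
    rw [← zero_smul ℝ (G.omega x), G.W_smul_right, zero_mul]
  rw [W_split hP x (hF.1 x) (hBs.1 x), hd1, hd2, hz, zero_add] at key
  have key' : G.W x (B x) (B x) ≤ a * p := key
  have h' := h1 x _ (anti_at hBs.1 hBa x)
  have hq : p * p ≤ C1 * a * p := by
    calc p * p = p ^ 2 := by ring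
      _ ≤ C1 * G.W x (B x) (B x) := h'
      _ ≤ C1 * (a * p) := mul_le_mul_of_nonneg_left key' hC1.le
      _ = _ := by ring
  rcases hp0.eq_or_lt with hz | hlt
  · rw [← hz]
    positivity
  · exact le_of_mul_le_mul_right hq hlt

/-- Lower bound on the invariant part from semipositive tests. -/
theorem inv_part_pos (hP : PointFacts G) (hB : BaseFacts G) :
    ∃ C : ℝ, ∀ F : X → Bil, Smooth2 F → ∀ (x : X) (U : Set X), U ∈ 𝓝 x → ∀ a : ℝ, 0 ≤ a →
      (∀ θ, Smooth2 θ → G.Inv θ → G.SemiPos θ → (∀ z, z ∉ U → θ z = 0) →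
        -(a * ∫ z, G.nrm2 θ z ∂G.vol) ≤ G.pair F θ) →
      G.PosAt x (G.p11 F x + (C * a) • G.omega x) := by
  obtain ⟨C2, hC2, h2⟩ := hP.pos_nrm
  refine ⟨C2, fun F hF x U hU a ha h => ?_⟩
  have hAat : G.InvAt x (G.p11 F x) := hP.inv11_at x _ (hF.1 x)
  refine hP.W_dual x _ ?_ fun a0 => ?_
  · refine ⟨(hAat.1).add ((G.omega_smooth.1 x).smul _), ?_⟩
    rw [pullBil_add, pullBil_smul, hAat.2, (hP.omega_at x).1.2]
  obtain ⟨α, hα, hαx⟩ := exists_cov_field hB x a0
  let H : X → Bil := fun z => posForm (G.J z) (α z)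
  have hneg : Smooth1 (fun z => -((α z).comp (G.J z))) := by
    have e : (fun z => -((α z).comp (G.J z))) =
        fun z => (-1 : ℝ) • (α z).comp (G.J z) := funext fun z => (neg_one_smul ℝ _).symm
    rw [e]
    exact hB.smul1 _ _ contMDiff_const (hB.compJ_smooth α hα)
  have hHs : Smooth2 H := hB.wedge_smooth α _ hα hneg
  have hHi : G.Inv H := fun z u v => by
    have hp := (hP.posForm_at z (α z)).1.2
    exact ContinuousLinearMap.ext_iff.1 (ContinuousLinearMap.ext_iff.1 hp u) v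
  have hHp : G.SemiPos H := fun z v => (hP.posForm_at z (α z)).2 v
  have hNs : Smooth2 (-H) := hHs.neg
  have key := W_le_of_tested hB hF hNs x hU a fun f hfs hf0 hfU => by
    have hsp : G.SemiPos (fun z => f z • H z) := fun z v => mul_nonneg (hf0 z) (hHp z v)
    have h0 := h _ (hB.smul2 f H hfs hHs) (inv_smul_fun hHi f) hsp fun z hz => by
      have : f z = 0 := by
        by_contra hne
        exact hz (hfU hne)
      simp [this]
    have e1 : G.pair F (fun z => f z • (-H) z) = -G.pair F (fun z => f z • H z) := by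
      simp only [Geo.pair, ← integral_neg]
      congr 1
      funext z
      show G.W z (F z) (f z • -H z) = -G.W z (F z) (f z • H z)
      rw [← neg_one_smul ℝ (H z), G.W_smul_right, G.W_smul_right, G.W_smul_right]
      ring
    have e2 : ∀ z, G.nrm2 (fun z => f z • (-H) z) z = G.nrm2 (fun z => f z • H z) z := by
      intro z
      rw [nrm2_smul_fun _ f z hB, nrm2_smul_fun _ f z hB, nrm2_val hB, nrm2_val hB]
      congr 1
      exact nrmVal_neg hB z _
    simp_rw [e1, e2]
    linarith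
  have hHx : H x = posForm (G.J x) a0 := by
    show posForm (G.J x) (α x) = _
    rw [hαx]
  have e3 : G.W x (F x) ((-H) x) = -G.W x (G.p11 F x) (posForm (G.J x) a0) := by
    show G.W x (F x) (-H x) = _
    rw [← neg_one_smul ℝ (H x), G.W_smul_right, W_split hP x (hF.1 x) (hHs.1 x),
      inv11_of_inv (G.J x) (G.inv_pull hHi x), anti20_of_inv (G.J x) (G.inv_pull hHi x), hHx]
    have hz : G.W x (anti20 (G.J x) (F x)) 0 = 0 := by
      rw [← zero_smul ℝ (G.omega x), G.W_smul_right, zero_mul]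
    rw [hz, add_zero]
    show -1 * G.W x (G.p11 F x) _ = -G.W x (G.p11 F x) _
    ring
  have e4 : G.nrm2 (-H) x ≤ C2 * G.W x (G.omega x) (posForm (G.J x) a0) := by
    rw [nrm2_val hB]
    show G.nrmVal x (-H x) ≤ _
    rw [nrmVal_neg hB, hHx, G.W_comm x (G.omega x)]
    exact h2 x _ (hP.posForm_at x a0)
  rw [e3] at key
  rw [G.W_add_left, G.W_smul_left]
  have := mul_le_mul_of_nonneg_left e4 ha
  linarith

end Vale.Agent.P204.Full.Final
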