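import Vale.Agent.P204.Full.Final.Transposes

/-!
The error integrals of the intersection identity tend to zero.
-/

open scoped Manifold ContDiff Topology
open MeasureTheory Set Filter

noncomputable section

namespace Vale.Agent.P204.Full.Final

universe u

variable {X : Type u} [TopologicalSpace X] [T2Space X] [CompactSpace X] [ChartedSpace R4 X]
  [IsManifold 𝓘(ℝ, R4) ∞ X] [MeasurableSpace X] [BorelSpace X] {G : Geo X}

theorem eventually_small {a : ℝ} (ha : 0 < a) : ∀ᶠ s in 𝓝[>] (0 : ℝ), 0 < s ∧ s ≤ a := by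
  filter_upwards [Ioo_mem_nhdsGT ha] with s hs
  exact ⟨hs.1, hs.2.le⟩

theorem mavg_mul_integrable (hB : BaseFacts G) (μ ν : Measure X) [IsFiniteMeasure μ]
    [IsFiniteMeasure ν] (a b : ℝ) :
    Integrable (fun x => G.mavg μ a x * G.mavg ν b x) G.vol := by
  have := hB.vol_finite
  exact (mavg_integrable hB a μ G.vol).mul_bdd (mavg_measurable hB b ν).aestronglyMeasurable
    (Eventually.of_forall fun x => by
      rw [Real.norm_eq_abs, abs_of_nonneg (mavg_nonneg _ _ _)]
      exact mavg_le_univ _ _ _)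

/-- `s² ∫ mR m → 0`. -/
theorem cross_tendsto (hB : BaseFacts G) (D R : PosCur G)
    (hR : ∀ K : ℝ, 1 ≤ K →
      Tendsto (fun s => integral R.mu fun x => G.dens D.mu (K * s) x) (𝓝[>] (0 : ℝ)) (𝓝 0))
    {K : ℝ} (hK : 1 ≤ K) :
    Tendsto (fun s => s ^ 2 * ∫ x, G.mavg D.mu (K * s) x * G.mavg R.mu (K * s) x ∂G.vol)
      (𝓝[>] (0 : ℝ)) (𝓝 0) := by
  have := D.finite_mu
  have := R.finite_mu
  obtain ⟨A, C, r0, hC, hr0, hr01, h⟩ := mavg_mul_le hB
  have hK0 : 0 < K := by linarith
  have hlim := (hR (C * K) (by nlinarith)).const_mul (A / K ^ 2)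
  rw [mul_zero] at hlim
  refine squeeze_zero' ?_ ?_ hlim
  · exact Eventually.of_forall fun s => mul_nonneg (sq_nonneg _)
      (integral_nonneg fun x => mul_nonneg (mavg_nonneg _ _ _) (mavg_nonneg _ _ _))
  · filter_upwards [eventually_small (a := r0 / K) (by positivity)] with s hs
    have hle : K * s ≤ r0 := by
      have := hs.2
      rw [le_div_iff₀ hK0] at this
      linarith
    have h1 := h D.mu R.mu (K * s) (mul_pos hK0 hs.1) hle
    rw [← mul_assoc C K s] at h1
    calc s ^ 2 * ∫ x, G.mavg D.mu (K * s) x * G.mavg R.mu (K * s) x ∂G.vol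
        = 1 / K ^ 2 * ((K * s) ^ 2 * ∫ x, G.mavg D.mu (K * s) x * G.mavg R.mu (K * s) x ∂G.vol) := by
          field_simp
      _ ≤ 1 / K ^ 2 * (A * ∫ x, G.dens D.mu (C * K * s) x ∂(R.mu)) := by gcongr
      _ = A / K ^ 2 * ∫ x, G.dens D.mu (C * K * s) x ∂(R.mu) := by ring

/-- `s² ∫ m²` is bounded when the density is. -/
theorem square_bounded (hB : BaseFacts G) (D : PosCur G) {M : ℝ}
    (hM : ∀ x r, 0 < r → r ≤ 1 → G.dens D.mu r x ≤ M) {K : ℝ} (hK : 1 ≤ K) :
    ∃ B : ℝ, ∀ᶠ s in 𝓝[>] (0 : ℝ), s ^ 2 * ∫ x, G.mavg D.mu (K * s) x ^ 2 ∂G.vol ≤ B := by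
  have := D.finite_mu
  obtain ⟨A, C, r0, hC, hr0, hr01, h⟩ := mavg_mul_le hB
  have hK0 : 0 < K := by linarith
  refine ⟨max A 0 / K ^ 2 * (max M 0 * D.mu.real univ), ?_⟩
  filter_upwards [eventually_small (a := min (r0 / K) (1 / (C * K))) (by positivity)] with s hs
  have hle : K * s ≤ r0 := by
    have := hs.2.trans (min_le_left _ _)
    rw [le_div_iff₀ hK0] at this
    linarith
  have hCK : C * (K * s) ≤ 1 := by
    have := hs.2.trans (min_le_right _ _)
    rw [le_div_iff₀ (by positivity)] at this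
    linarith
  have hKs : 0 < K * s := mul_pos hK0 hs.1
  have h1 := h D.mu D.mu (K * s) hKs hle
  have h2 : ∫ z, G.dens D.mu (C * (K * s)) z ∂(D.mu) ≤ max M 0 * D.mu.real univ := by
    calc ∫ z, G.dens D.mu (C * (K * s)) z ∂(D.mu) ≤ ∫ _z, max M 0 ∂(D.mu) :=
          integral_mono_of_nonneg (Eventually.of_forall fun z => dens_nonneg _ _ _)
            (integrable_const _) (Eventually.of_forall fun z =>
              (hM z _ (by positivity) hCK).trans (le_max_left _ _))
      _ = _ := by rw [integral_const, smul_eq_mul]; ring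
  simp_rw [sq (G.mavg D.mu (K * s) _)]
  calc s ^ 2 * ∫ x, G.mavg D.mu (K * s) x * G.mavg D.mu (K * s) x ∂G.vol
      = 1 / K ^ 2 * ((K * s) ^ 2 * ∫ x, G.mavg D.mu (K * s) x * G.mavg D.mu (K * s) x ∂G.vol) := by
        field_simp
    _ ≤ 1 / K ^ 2 * (max A 0 * (max M 0 * D.mu.real univ)) := by
        refine mul_le_mul_of_nonneg_left ?_ (by positivity)
        exact h1.trans ((mul_le_mul_of_nonneg_right (le_max_left _ _)
          (integral_nonneg fun z => dens_nonneg _ _ _)).trans
            (mul_le_mul_of_nonneg_left h2 (le_max_right _ _)))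
    _ = _ := by ring

/-- `s ∫ η → 0` and `s ∫ η m → 0`, `η` the average of a square integrable function. -/
theorem mixed_tendsto (hB : BaseFacts G) (D : PosCur G) {M : ℝ}
    (hM : ∀ x r, 0 < r → r ≤ 1 → G.dens D.mu r x ≤ M) {h : X → ℝ} (hh0 : ∀ x, 0 ≤ h x)
    (hhm : Measurable h) (hh : MemLp h 2 G.vol) {K L : ℝ} (hK : 1 ≤ K) (hL : 1 ≤ L) :
    Tendsto (fun s => s * ∫ x, G.avg (L * s) h x * G.mavg D.mu (K * s) x ∂G.vol)
      (𝓝[>] (0 : ℝ)) (𝓝 0) := by
  have := D.finite_mu
  have := hB.vol_finite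
  obtain ⟨Ca, hCa⟩ := avg_sq_le hB
  obtain ⟨Cm, hCm⟩ := mavg_integral_le hB
  obtain ⟨V, hV⟩ := hB.vol_near
  obtain ⟨B, hBd⟩ := square_bounded hB D hM hK
  rw [Metric.tendsto_nhds]
  intro ε hε
  set t := ε / (2 * (max B 0 + 1)) with ht
  have ht0 : 0 < t := by positivity
  have htail : Tendsto (fun N : ℕ => ∫ x, max (h x - N) 0 ^ 2 ∂G.vol) atTop (𝓝 0) := by
    have := tendsto_integral_of_dominated_convergence (μ := G.vol)
      (F := fun (N : ℕ) x => max (h x - N) 0 ^ 2) (f := fun _ => (0 : ℝ)) (fun x => h x ^ 2)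
      (fun N => (((hhm.sub measurable_const).max measurable_const).pow_const 2).aestronglyMeasurable)
      hh.integrable_sq
      (fun N => Eventually.of_forall fun x => by
        rw [Real.norm_eq_abs, abs_of_nonneg (sq_nonneg _)]
        refine pow_le_pow_left₀ (le_max_right _ _) (max_le ?_ (hh0 x)) 2
        have : (0 : ℝ) ≤ N := N.cast_nonneg
        linarith)
      (Eventually.of_forall fun x => by
        refine tendsto_const_nhds.congr' ?_
        filter_upwards [tendsto_natCast_atTop_atTop.eventually_ge_atTop (h x)] with N hN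
        rw [max_eq_right (by linarith)]
        norm_num)
    simpa using this
  obtain ⟨N, hN⟩ := (htail.eventually (gt_mem_nhds
    (show (0 : ℝ) < ε * t / (2 * (max Ca 0 + 1)) by positivity))).exists
  set g : X → ℝ := fun x => max (h x - N) 0 with hg
  have hgm : Measurable g := (hhm.sub measurable_const).max measurable_const
  have hg0 : ∀ x, 0 ≤ g x := fun x => le_max_right _ _
  have hgl : MemLp g 2 G.vol := hh.mono hgm.aestronglyMeasurable (Eventually.of_forall fun x => by
    rw [Real.norm_eq_abs, Real.norm_eq_abs, abs_of_nonneg (hg0 x), abs_of_nonneg (hh0 x)]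
    have : (0 : ℝ) ≤ N := N.cast_nonneg
    exact max_le (by linarith) (hh0 x))
  have hhi : Integrable h G.vol := hh.integrable (by norm_num)
  have hgi : Integrable g G.vol := hgl.integrable (by norm_num)
  set c := (N : ℝ) * max V 0 * (max Cm 0 * D.mu.real univ) with hc
  have hc0 : 0 ≤ c := by positivity
  filter_upwards [eventually_small (a := min (1 / L) (min (1 / K) (ε / (4 * (c + 1)))))
    (by positivity), hBd] with s hs hB2
  have hKs : K * s ≤ 1 := by
    have := hs.2.trans ((min_le_right _ _).trans (min_le_left _ _))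
    rw [le_div_iff₀ (by linarith)] at this
    linarith
  have hLs : L * s ≤ 1 := by
    have := hs.2.trans (min_le_left _ _)
    rw [le_div_iff₀ (by linarith)] at this
    linarith
  have hs4 : s * (4 * (c + 1)) ≤ ε := by
    have := hs.2.trans ((min_le_right _ _).trans (min_le_right _ _))
    rwa [le_div_iff₀ (by positivity)] at this
  have hKs0 : 0 < K * s := mul_pos (by linarith) hs.1
  have hLs0 : 0 < L * s := mul_pos (by linarith) hs.1
  set m := G.mavg D.mu (K * s) with hm
  have hm0 : ∀ x, 0 ≤ m x := mavg_nonneg _ _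
  have hmi : Integrable m G.vol := mavg_integrable hB _ _ _
  have hmm : Integrable (fun x => m x ^ 2) G.vol := by
    simpa only [sq] using mavg_mul_integrable hB D.mu D.mu (K * s) (K * s)
  obtain ⟨hgsq, hgle⟩ := hCa g (L * s) hLs0 hLs hg0 hgm hgl
  have hsplit : ∀ x, G.avg (L * s) h x ≤ N * max V 0 + G.avg (L * s) g x := by
    intro x
    simp only [Geo.avg]
    have hle : ∫ z in G.near (L * s) x, h z ∂G.vol ≤
        ∫ z in G.near (L * s) x, ((N : ℝ) + g z) ∂G.vol :=
      setIntegral_mono_on hhi.integrableOn ((integrable_const _).integrableOn.add hgi.integrableOn)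
        (near_slice_measurable hB _ x) fun z _ => by
          have : h z - N ≤ g z := le_max_left _ _
          linarith
    rw [integral_add (integrable_const _).integrableOn hgi.integrableOn, setIntegral_const,
      smul_eq_mul] at hle
    have h4 : 0 < (L * s) ^ 4 := by positivity
    calc ((L * s) ^ 4)⁻¹ * ∫ z in G.near (L * s) x, h z ∂G.vol
        ≤ ((L * s) ^ 4)⁻¹ * (G.vol.real (G.near (L * s) x) * N +
            ∫ z in G.near (L * s) x, g z ∂G.vol) := mul_le_mul_of_nonneg_left hle (by positivity)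
      _ ≤ ((L * s) ^ 4)⁻¹ * (max V 0 * (L * s) ^ 4 * N +
            ∫ z in G.near (L * s) x, g z ∂G.vol) := by
          gcongr
          exact (hV _ x hLs0 hLs).1.trans
            (mul_le_mul_of_nonneg_right (le_max_left _ _) (by positivity))
      _ = _ := by
          have hs0 : s ≠ 0 := hs.1.ne'
          have hL0 : L ≠ 0 := by linarith
          field_simp
  have hpt : ∀ x, s * (G.avg (L * s) h x * m x) ≤
      s * (N * max V 0) * m x + t / 2 * (s ^ 2 * m x ^ 2) + 1 / (2 * t) * G.avg (L * s) g x ^ 2 := by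
    intro x
    have h1 := mul_le_mul_of_nonneg_left (mul_le_mul_of_nonneg_right (hsplit x) (hm0 x)) hs.1.le
    have h2 : s * (G.avg (L * s) g x * m x) ≤
        t / 2 * (s ^ 2 * m x ^ 2) + 1 / (2 * t) * G.avg (L * s) g x ^ 2 := by
      have key : 0 ≤ 1 / (2 * t) * (t * (s * m x) - G.avg (L * s) g x) ^ 2 := by positivity
      have e : 1 / (2 * t) * (t * (s * m x) - G.avg (L * s) g x) ^ 2 =
          t / 2 * (s ^ 2 * m x ^ 2) + 1 / (2 * t) * G.avg (L * s) g x ^ 2 -
            s * (G.avg (L * s) g x * m x) := by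
        field_simp
        ring
      linarith
    linarith
  have hprod : Integrable (fun x => s * (G.avg (L * s) h x * m x)) G.vol :=
    ((avg_integrable hB _ G.vol hhi).mul_bdd (mavg_measurable hB _ _).aestronglyMeasurable
      (Eventually.of_forall fun x => by
        rw [Real.norm_eq_abs, abs_of_nonneg (hm0 x)]
        exact mavg_le_univ _ _ _)).const_mul s
  have hint := integral_mono hprod
    ((((hmi.const_mul (s * (N * max V 0))).add ((hmm.const_mul (s ^ 2)).const_mul (t / 2))).add
      (hgsq.const_mul (1 / (2 * t))))) hpt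
  have hi12 : Integrable (fun x => s * (N * max V 0) * m x + t / 2 * (s ^ 2 * m x ^ 2)) G.vol :=
    (hmi.const_mul _).add ((hmm.const_mul _).const_mul _)
  simp only [Pi.add_apply] at hint
  rw [integral_const_mul, integral_add hi12 (hgsq.const_mul _),
    integral_add (hmi.const_mul _) ((hmm.const_mul _).const_mul _), integral_const_mul,
    integral_const_mul, integral_const_mul, integral_const_mul] at hint
  have e1 : s * (N * max V 0) * ∫ x, m x ∂G.vol ≤ ε / 4 := by
    have := (hCm D.mu (K * s) hKs0 hKs).trans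
      (mul_le_mul_of_nonneg_right (le_max_left Cm 0) measureReal_nonneg)
    calc s * (N * max V 0) * ∫ x, m x ∂G.vol ≤ s * (N * max V 0) * (max Cm 0 * D.mu.real univ) :=
          mul_le_mul_of_nonneg_left this (mul_nonneg hs.1.le (by positivity))
      _ = s * c := by rw [hc]; ring
      _ ≤ ε / 4 := by nlinarith [hs.1]
  have e2 : t / 2 * (s ^ 2 * ∫ x, m x ^ 2 ∂G.vol) ≤ ε / 4 := by
    calc t / 2 * (s ^ 2 * ∫ x, m x ^ 2 ∂G.vol) ≤ t / 2 * (max B 0 + 1) := by
          refine mul_le_mul_of_nonneg_left (hB2.trans ?_) (by positivity)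
          linarith [le_max_left B 0]
      _ = ε / 4 := by rw [ht]; field_simp; ring
  have e3 : 1 / (2 * t) * ∫ x, G.avg (L * s) g x ^ 2 ∂G.vol ≤ ε / 4 := by
    calc 1 / (2 * t) * ∫ x, G.avg (L * s) g x ^ 2 ∂G.vol
        ≤ 1 / (2 * t) * ((max Ca 0 + 1) * (ε * t / (2 * (max Ca 0 + 1)))) := by
          refine mul_le_mul_of_nonneg_left (hgle.trans ?_) (by positivity)
          exact mul_le_mul (by linarith [le_max_left Ca 0]) hN.le
            (integral_nonneg fun x => sq_nonneg _) (by positivity)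
      _ = ε / 4 := by field_simp; ring
  have h0 : 0 ≤ s * ∫ x, G.avg (L * s) h x * m x ∂G.vol :=
    mul_nonneg hs.1.le (integral_nonneg fun x => mul_nonneg (avg_nonneg _ hh0 x) (hm0 x))
  rw [Real.dist_eq, sub_zero, abs_of_nonneg h0]
  linarith

end Vale.Agent.P204.Full.Final
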