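import Vale.Agent.P204.Full.Final.Algebra
import Vale.Agent.P204.Full.Final.Estimates

/-!
The intersection identity: the partner of the positive current vanishes.
-/

open scoped Manifold ContDiff Topology
open MeasureTheory Set Filter

noncomputable section

namespace Vale.Agent.P204.Full.Final

universe u

variable {X : Type u} [TopologicalSpace X] [T2Space X] [CompactSpace X] [ChartedSpace R4 X]
  [IsManifold 𝓘(ℝ, R4) ∞ X] [MeasurableSpace X] [BorelSpace X] {G : Geo X}

theorem pair_add_left (hB : BaseFacts G) {a b c : X → Bil} (ha : Smooth2 a) (hb : Smooth2 b)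
    (hc : Smooth2 c) : G.pair (a + b) c = G.pair a c + G.pair b c := by
  have i1 := hB.pair_integrable a c (hB.smooth_cont a ha) (hB.smooth_cont c hc)
  have i2 := hB.pair_integrable b c (hB.smooth_cont b hb) (hB.smooth_cont c hc)
  simp only [Geo.pair, Pi.add_apply, G.W_add_left]
  exact integral_add i1 i2

theorem pair_comm' (a b : X → Bil) : G.pair a b = G.pair b a := by
  simp only [Geo.pair, G.W_comm]

theorem pair_add_right (hB : BaseFacts G) {a b c : X → Bil} (ha : Smooth2 a) (hb : Smooth2 b)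
    (hc : Smooth2 c) : G.pair c (a + b) = G.pair c a + G.pair c b := by
  rw [pair_comm', pair_add_left hB ha hb hc, pair_comm' a, pair_comm' b]

theorem pos_mono (hP : PointFacts G) {x : X} {a : Bil} (ha : G.InvAt x a) {p q : ℝ} (hpq : p ≤ q)
    (h : G.PosAt x (a + p • G.omega x)) : G.PosAt x (a + q • G.omega x) := by
  have hom := hP.omega_at x
  refine ⟨⟨ha.1.add (hom.1.1.smul _), ?_⟩, fun v => ?_⟩
  · rw [pullBil_add, pullBil_smul, hom.1.2, ha.2]
  · show 0 ≤ a v (G.J x v) + q * G.omega x v (G.J x v)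
    have h1 : 0 ≤ a v (G.J x v) + p * G.omega x v (G.J x v) := h.2 v
    have h2 := mul_le_mul_of_nonneg_right hpq (hom.2 v)
    linarith

theorem hsum_nonneg (N : ℕ) (θ : X → Bil) : 0 ≤ G.hsum N θ :=
  Finset.sum_nonneg fun _ _ => Finset.sum_nonneg fun _ _ => Real.sqrt_nonneg _

theorem current_hsum (hB : BaseFacts G) (hC : CurFacts G) (D : PosCur G) :
    ∃ (N : ℕ) (C : ℝ), ∀ θ, Smooth2 θ → |D.P θ| ≤ C * G.hsum N θ := by
  obtain ⟨Cb, hCb⟩ := hC.bound
  obtain ⟨Cs, hCs⟩ := hB.sobolev_nrm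
  have := D.finite_mu
  refine ⟨4, max Cb 0 * (max Cs 0 * D.mu.real univ), fun θ hθ => ?_⟩
  refine (hCb D θ (hB.smooth_cont θ hθ)).trans ?_
  calc Cb * ∫ x, G.nrm2 θ x ∂(D.mu) ≤ max Cb 0 * ∫ x, G.nrm2 θ x ∂(D.mu) :=
        mul_le_mul_of_nonneg_right (le_max_left _ _) (integral_nonneg fun x => nrm2_nonneg hB θ x)
    _ ≤ max Cb 0 * ∫ _x, max Cs 0 * G.hsum 4 θ ∂(D.mu) := by
        refine mul_le_mul_of_nonneg_left ?_ (le_max_right _ _)
        exact integral_mono_of_nonneg (Eventually.of_forall fun x => nrm2_nonneg hB θ x)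
          (integrable_const _) (Eventually.of_forall fun x =>
            (hCs θ hθ x).trans (mul_le_mul_of_nonneg_right (le_max_left _ _) (hsum_nonneg _ _)))
    _ = _ := by rw [integral_const, smul_eq_mul]; ring

theorem partner_hsum (hP : PointFacts G) (hB : BaseFacts G) (D : Pair G) {h : X → ℝ}
    (hh0 : ∀ x, 0 ≤ h x) (hhi : Integrable h G.vol)
    (hQ : ∀ b, Smooth2 b → G.Anti b → |D.Q b| ≤ ∫ x, h x * G.nrm2 b x ∂G.vol) :
    ∃ (N : ℕ) (C : ℝ), ∀ θ, Smooth2 θ → |(D.Q.comp G.p20L) θ| ≤ C * G.hsum N θ := by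
  obtain ⟨Cs, hCs⟩ := hB.sobolev_nrm
  obtain ⟨Cp, hCp⟩ := hP.pi_bound
  refine ⟨4, max Cp 0 * max Cs 0 * ∫ x, h x ∂G.vol, fun θ hθ => ?_⟩
  obtain ⟨hs, ha⟩ := hB.p20_smooth θ hθ
  refine (hQ _ hs ha).trans ?_
  calc ∫ x, h x * G.nrm2 (G.p20 θ) x ∂G.vol
      ≤ ∫ x, max Cp 0 * max Cs 0 * G.hsum 4 θ * h x ∂G.vol := by
        refine integral_mono_of_nonneg
          (Eventually.of_forall fun x => mul_nonneg (hh0 x) (nrm2_nonneg hB _ x))
          (hhi.const_mul _) (Eventually.of_forall fun x => ?_)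
        show h x * G.nrm2 (G.p20 θ) x ≤ max Cp 0 * max Cs 0 * G.hsum 4 θ * h x
        rw [mul_comm _ (h x)]
        refine mul_le_mul_of_nonneg_left ?_ (hh0 x)
        rw [nrm2_val hB]
        refine ((hCp x _ (hθ.1 x)).2).trans ?_
        calc Cp * G.nrmVal x (θ x) ≤ max Cp 0 * G.nrmVal x (θ x) :=
              mul_le_mul_of_nonneg_right (le_max_left _ _) (nrmVal_nonneg hB x _)
          _ ≤ max Cp 0 * (max Cs 0 * G.hsum 4 θ) := by
              refine mul_le_mul_of_nonneg_left ?_ (le_max_right _ _)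
              rw [← nrm2_val hB]
              exact (hCs θ hθ x).trans
                (mul_le_mul_of_nonneg_right (le_max_left _ _) (hsum_nonneg _ _))
          _ = _ := by ring
    _ = _ := by rw [integral_const_mul]; ring

/-- The intersection step, for one manifold. -/
theorem partner_eq_zero (hP : PointFacts G) (hB : BaseFacts G) (hC : CurFacts G) (D : Pair G)
    (S : Smoother G) (hdens : DensBounded D) (hq : QSquareIntegrable D) (hsplit : HasSplitting D) :
    ∀ b, Smooth2 b → G.Anti b → D.Q b = 0 := by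
  intro b hb hba
  have := D.finite_mu
  have := hB.vol_finite
  obtain ⟨M, hM⟩ := hdens
  obtain ⟨h0, h00, h0L, h0Q⟩ := hq
  set h : X → ℝ := fun x => max (h0L.1.mk h0 x) 0 with hhdef
  have hhm : Measurable h := h0L.1.stronglyMeasurable_mk.measurable.max measurable_const
  have hhae : h =ᵐ[G.vol] h0 := by
    filter_upwards [h0L.1.ae_eq_mk] with x hx
    show max (h0L.1.mk h0 x) 0 = h0 x
    rw [← hx, max_eq_left (h00 x)]
  have hh0 : ∀ x, 0 ≤ h x := fun x => le_max_right _ _
  have hhL : MemLp h 2 G.vol := h0L.ae_eq hhae.symm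
  have hhi : Integrable h G.vol := hhL.integrable (by norm_num)
  have hQ : ∀ b, Smooth2 b → G.Anti b → |D.Q b| ≤ ∫ x, h x * G.nrm2 b x ∂G.vol := by
    intro b hb hba
    refine (h0Q b hb hba).trans (le_of_eq (integral_congr_ae ?_))
    filter_upwards [hhae] with x hx
    rw [hx]
  obtain ⟨Sc, R, hsum, hSm, hRm, hSk, hRt⟩ := hsplit
  have := Sc.finite_mu
  have := R.finite_mu
  obtain ⟨C1, K1, s1, hC1, hK1, hs1, hs10, hKs1, hcur⟩ := current_bounds hP hB hC S
  obtain ⟨C2, K2, s2, hC2, hK2, hs2, hs20, hKs2, hpar⟩ := partner_bounds hP hB S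
  obtain ⟨Ck, c, hc, hCk, hkey⟩ := pointwise_key hP hB
  obtain ⟨Ca, hCa⟩ := avg_sq_le hB
  obtain ⟨Cm, hCm⟩ := mavg_integral_le hB
  obtain ⟨C3, hC3⟩ := hP.W_bound
  obtain ⟨Cs, hCs⟩ := hB.sobolev_nrm
  obtain ⟨NQ, CQ, hCQ⟩ := D.Q_bound
  obtain ⟨Cp, hCp⟩ := hB.p20_hsum NQ
  obtain ⟨Capp, hCapp⟩ := S.hsum_approx NQ
  set K := max 1 (max C1 C2) with hKdef
  have hK1le : C1 ≤ K := (le_max_left _ _).trans (le_max_right _ _)
  have hK2le : C2 ≤ K := (le_max_right _ _).trans (le_max_right _ _)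
  have hKone : 1 ≤ K := le_max_left _ _
  -- the error function
  set E : ℝ → ℝ := fun s =>
    s ^ 2 * (∫ x, G.mavg D.mu (K1 * s) x * G.mavg R.mu (K1 * s) x ∂G.vol) +
      s ^ 2 * (max Ca 0 * ∫ x, h x ^ 2 ∂G.vol) +
      s * (∫ x, G.avg (K2 * s) h x * G.mavg D.mu (K1 * s) x ∂G.vol) with hE
  have hEt : Tendsto E (𝓝[>] (0 : ℝ)) (𝓝 0) := by
    have h1 := cross_tendsto hB D.toPosCur R hRt hK1
    have h2 : Tendsto (fun s : ℝ => s ^ 2 * (max Ca 0 * ∫ x, h x ^ 2 ∂G.vol))
        (𝓝[>] (0 : ℝ)) (𝓝 0) := by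
      have hcont : Continuous fun s : ℝ => s ^ 2 * (max Ca 0 * ∫ x, h x ^ 2 ∂G.vol) := by
        fun_prop
      have := hcont.tendsto 0
      simp only [ne_eq, OfNat.ofNat_ne_zero, not_false_eq_true, zero_pow, zero_mul] at this
      exact this.mono_left nhdsWithin_le_nhds
    have h3 := mixed_tendsto hB D.toPosCur hM hh0 hhm hhL hK1 hK2
    have := (h1.add h2).add h3
    simpa only [add_zero] using this
  set Bb := max Cs 0 * G.hsum 4 b with hBb
  have hBb0 : 0 ≤ Bb := mul_nonneg (le_max_right _ _) (hsum_nonneg _ _)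
  have hbn : ∀ x, G.nrm2 b x ≤ Bb := fun x =>
    (hCs b hb x).trans (mul_le_mul_of_nonneg_right (le_max_left _ _) (hsum_nonneg _ _))
  set a := max CQ 0 * (max Cp 0 * (max Capp 0 * G.hsum (NQ + 1) b)) +
    max C3 0 * Bb * K * (max Cm 0 * D.mu.real univ) with ha
  have ha0 : 0 ≤ a := by
    have := hsum_nonneg (G := G) (NQ + 1) b
    positivity
  -- the estimate at a fixed scale
  have main : ∀ t : ℝ, 0 < t → ∀ᶠ s in 𝓝[>] (0 : ℝ),
      |D.Q b| ≤ a * s + max C3 0 * Bb *
        (t / 2 * G.vol.real univ + 1 / (2 * t) * (Ck * K ^ 2 / c * E s)) := by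
    intro t ht
    filter_upwards [eventually_small (a := min s1 (min s2 1)) (lt_min hs1 (lt_min hs2 one_pos))]
      with s hs
    have hss1 : s ≤ s1 := hs.2.trans (min_le_left _ _)
    have hss2 : s ≤ s2 := hs.2.trans ((min_le_right _ _).trans (min_le_left _ _))
    have hsle1 : s ≤ 1 := hs.2.trans ((min_le_right _ _).trans (min_le_right _ _))
    have hs0 : 0 < s := hs.1
    have hsS : s ≤ S.s0 := hss1.trans hs10
    obtain ⟨FR, hFR, hFRp⟩ := S.transpose s hs0 hsS R.P (current_hsum hB hC R)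
    obtain ⟨FY, hFY, hFYp⟩ := S.transpose s hs0 hsS Sc.P (current_hsum hB hC Sc)
    obtain ⟨FQ, hFQ, hFQp⟩ := S.transpose s hs0 hsS (D.Q.comp G.p20L)
      (partner_hsum hP hB D hh0 hhi hQ)
    have hFX : Smooth2 (FR + FQ) := hFR.add hFQ
    have hFD : Smooth2 (FR + FQ + FY) := hFX.add hFY
    have hpair : ∀ θ, Smooth2 θ →
        G.pair (FR + FQ + FY) θ = D.P (S.ST s θ) + D.Q (G.p20 (S.ST s θ)) := by
      intro θ hθ
      rw [pair_add_left hB hFX hFY hθ, pair_add_left hB hFR hFQ hθ, hFRp θ hθ, hFQp θ hθ,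
        hFYp θ hθ, hsum _ (hB.smooth_cont _ (S.smooth s hs0 hsS θ hθ))]
      show R.P (S.ST s θ) + D.Q (G.p20 (S.ST s θ)) + Sc.P (S.ST s θ) = _
      ring
    have hclY : Closed2 FY := hB.closed_of_pair FY hFY fun α hα => by
      rw [hFYp _ (hB.exact_closed α hα).1]
      obtain ⟨β, hβ, hβe⟩ := S.exact s hs0 hsS α hα
      rw [hβe, hSk β hβ]
    have hkill : ∀ θ, Closed2 θ → G.pair (FR + FQ + FY) θ = 0 := fun θ hθ => by
      rw [hpair θ hθ.1]
      exact D.kills _ (S.closed s hs0 hsS θ hθ)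
    have hclD : Closed2 (FR + FQ + FY) := hB.closed_of_pair _ hFD fun α hα =>
      hkill _ (hB.exact_closed α hα)
    have hzero : G.pair (FR + FQ) (FR + FQ) + G.pair (FR + FQ) FY = 0 := by
      have e1 := hkill _ hclD
      have e2 := hkill _ hclY
      rw [pair_add_right hB hFX hFY hFD, e2, add_zero] at e1
      rw [pair_add_left hB hFX hFY hFX, pair_comm' FY] at e1
      exact e1
    set m := G.mavg D.mu (K1 * s) with hm
    set mR := G.mavg R.mu (K1 * s) with hmR
    set η := G.avg (K2 * s) h with hη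
    have hm0 : ∀ x, 0 ≤ m x := mavg_nonneg _ _
    have hmR0 : ∀ x, 0 ≤ mR x := mavg_nonneg _ _
    have hη0 : ∀ x, 0 ≤ η x := avg_nonneg _ hh0
    have hmRm : ∀ x, mR x ≤ m x := mavg_mono hRm _
    have hRb := hcur R s hs0 hss1 FR hFR hFRp
    have hYb := hcur Sc s hs0 hss1 FY hFY hFYp
    have hQb := hpar D h hh0 hhi hQ s hs0 hss2 FQ hFQ hFQp
    have key : ∀ x, c * G.nrm2 (G.p20 (FR + FQ)) x ^ 2 ≤
        G.W x ((FR + FQ) x) ((FR + FQ) x) + G.W x ((FR + FQ) x) (FY x) +
          Ck * K ^ 2 * (s ^ 2 * (mR x * m x) + s ^ 2 * η x ^ 2 + s * (η x * m x)) := by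
      intro x
      obtain ⟨r1, r2, r3⟩ := hRb x
      obtain ⟨y1, y2, y3⟩ := hYb x
      obtain ⟨q1, q2⟩ := hQb x
      rw [nrm2_val hB] at r1 r2 y1 y2 q1 q2 ⊢
      have hSmle : G.mavg Sc.mu (K1 * s) x ≤ m x := mavg_mono hSm _ x
      have hSm0 : 0 ≤ G.mavg Sc.mu (K1 * s) x := mavg_nonneg _ _ _
      refine hkey x (FR x) (FQ x) (FY x) s (mR x) (m x) (η x) K (hFR.1 x) (hFQ.1 x) (hFY.1 x)
        hs0.le hsle1 (hmR0 x) (hmRm x) (hη0 x) hKone ?_ ?_ ?_ ?_ ?_ ?_ ?_ ?_
      · exact r1.trans (mul_le_mul_of_nonneg_right hK1le (hmR0 x))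
      · exact r2.trans (mul_le_mul_of_nonneg_right (mul_le_mul_of_nonneg_right hK1le hs0.le) (hmR0 x))
      · exact y1.trans (mul_le_mul hK1le hSmle hSm0 (zero_le_one.trans hKone))
      · exact y2.trans (mul_le_mul (mul_le_mul_of_nonneg_right hK1le hs0.le) hSmle hSm0
          (by positivity))
      · exact q1.trans (mul_le_mul_of_nonneg_right (mul_le_mul_of_nonneg_right hK2le hs0.le) (hη0 x))
      · exact q2.trans (mul_le_mul_of_nonneg_right hK2le (hη0 x))
      · refine pos_mono hP (hP.inv11_at x _ (hFR.1 x)) ?_ r3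
        exact mul_le_mul_of_nonneg_right (mul_le_mul_of_nonneg_right hK1le (sq_nonneg s)) (hmR0 x)
      · refine pos_mono hP (hP.inv11_at x _ (hFY.1 x)) ?_ y3
        exact mul_le_mul (mul_le_mul_of_nonneg_right hK1le (sq_nonneg s)) hSmle hSm0
          (by positivity)
    -- integrate
    have iW1 := hB.pair_integrable _ _ (hB.smooth_cont _ hFX) (hB.smooth_cont _ hFX)
    have iW2 := hB.pair_integrable _ _ (hB.smooth_cont _ hFX) (hB.smooth_cont _ hFY)
    have iA : Integrable (fun x => mR x * m x) G.vol := mavg_mul_integrable hB R.mu D.mu _ _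
    have hK2s : K2 * s ≤ 1 :=
      (mul_le_mul_of_nonneg_left hss2 (zero_le_one.trans hK2)).trans hKs2
    have hK1s : K1 * s ≤ 1 :=
      (mul_le_mul_of_nonneg_left hss1 (zero_le_one.trans hK1)).trans hKs1
    obtain ⟨iη, hηle⟩ := hCa h (K2 * s) (by positivity) hK2s hh0 hhm hhL
    have iηm : Integrable (fun x => η x * m x) G.vol :=
      (avg_integrable hB _ G.vol hhi).mul_bdd (mavg_measurable hB _ _).aestronglyMeasurable
        (Eventually.of_forall fun x => by
          rw [Real.norm_eq_abs, abs_of_nonneg (hm0 x)]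
          exact mavg_le_univ _ _ _)
    have iE1 : Integrable (fun x => s ^ 2 * (mR x * m x) + s ^ 2 * η x ^ 2) G.vol :=
      (iA.const_mul _).add (iη.const_mul _)
    have iE2 : Integrable
        (fun x => s ^ 2 * (mR x * m x) + s ^ 2 * η x ^ 2 + s * (η x * m x)) G.vol :=
      iE1.add (iηm.const_mul _)
    have hcB := hB.p20_smooth _ hFX
    have hnc : Continuous (G.nrm2 (G.p20 (FR + FQ))) :=
      hB.nrm2_cont _ (hB.smooth_cont _ hcB.1)
    have iN2 : Integrable (fun x => G.nrm2 (G.p20 (FR + FQ)) x ^ 2) G.vol :=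
      integrable_of_cont hB (hnc.pow 2)
    have hI := integral_mono (iN2.const_mul c) ((iW1.add iW2).add (iE2.const_mul (Ck * K ^ 2))) key
    have hsq : ∫ x, G.nrm2 (G.p20 (FR + FQ)) x ^ 2 ∂G.vol ≤ Ck * K ^ 2 / c * E s := by
      rw [integral_add' (iW1.add iW2) (iE2.const_mul _), integral_add' iW1 iW2,
        integral_const_mul, integral_const_mul, integral_add iE1 (iηm.const_mul _),
        integral_add (iA.const_mul _) (iη.const_mul _), integral_const_mul, integral_const_mul,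
        integral_const_mul] at hI
      have hz : (∫ x, G.W x ((FR + FQ) x) ((FR + FQ) x) ∂G.vol) +
          ∫ x, G.W x ((FR + FQ) x) (FY x) ∂G.vol = 0 := hzero
      have hswap : ∫ x, mR x * m x ∂G.vol = ∫ x, m x * mR x ∂G.vol := by simp_rw [mul_comm]
      have hcap : ∫ x, η x ^ 2 ∂G.vol ≤ max Ca 0 * ∫ x, h x ^ 2 ∂G.vol :=
        hηle.trans (mul_le_mul_of_nonneg_right (le_max_left _ _)
          (integral_nonneg fun x => sq_nonneg _))
      have hE' : s ^ 2 * (∫ x, mR x * m x ∂G.vol) + s ^ 2 * (∫ x, η x ^ 2 ∂G.vol) +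
          s * (∫ x, η x * m x ∂G.vol) ≤ E s := by
        rw [hswap]
        simp only [hE, hm, hmR, hη]
        gcongr
      have hKK : 0 ≤ Ck * K ^ 2 := by positivity
      rw [div_mul_eq_mul_div, le_div_iff₀ hc]
      calc (∫ x, G.nrm2 (G.p20 (FR + FQ)) x ^ 2 ∂G.vol) * c
          = c * ∫ x, G.nrm2 (G.p20 (FR + FQ)) x ^ 2 ∂G.vol := mul_comm _ _
        _ ≤ _ := hI
        _ ≤ _ := by
            rw [hz, zero_add]
            exact mul_le_mul_of_nonneg_left hE' hKK
    -- the pairing with `b`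
    have hptb : ∀ x, |G.W x (FQ x) (b x)| ≤
        max C3 0 * Bb * (t / 2 + 1 / (2 * t) * G.nrm2 (G.p20 (FR + FQ)) x ^ 2) +
          max C3 0 * Bb * K * s * m x := by
      intro x
      have hb1 : inv11 (G.J x) (b x) = 0 := inv11_of_anti (G.J x) (G.anti_pull hba x)
      have hb2 : anti20 (G.J x) (b x) = b x := anti20_of_anti (G.J x) (G.anti_pull hba x)
      rw [W_split hP x (hFQ.1 x) (hb.1 x), hb1, hb2]
      have hz : G.W x (inv11 (G.J x) (FQ x)) 0 = 0 := by
        rw [← zero_smul ℝ (G.omega x), G.W_smul_right, zero_mul]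
      rw [hz, zero_add]
      have haQ := hP.anti20_at x _ (hFQ.1 x)
      refine (hC3 x _ _ haQ.1 (hb.1 x)).trans ?_
      have hdec : anti20 (G.J x) (FQ x) = anti20 (G.J x) ((FR + FQ) x) +
          -anti20 (G.J x) (FR x) := by
        show anti20 (G.J x) (FQ x) = anti20 (G.J x) (FR x + FQ x) + -anti20 (G.J x) (FR x)
        rw [anti20_add]
        abel
      have hn : G.nrmVal x (anti20 (G.J x) (FQ x)) ≤
          t / 2 + 1 / (2 * t) * G.nrm2 (G.p20 (FR + FQ)) x ^ 2 + K * s * m x := by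
        rw [hdec, nrm2_val hB]
        refine (nrmVal_add_le hB x _ _).trans (add_le_add ?_ ?_)
        · show G.nrmVal x (G.p20 (FR + FQ) x) ≤ _
          set y := G.nrmVal x (G.p20 (FR + FQ) x)
          have e : t / 2 + 1 / (2 * t) * y ^ 2 - y = 1 / (2 * t) * (t - y) ^ 2 := by
            field_simp
            ring
          have : 0 ≤ 1 / (2 * t) * (t - y) ^ 2 := by positivity
          linarith
        · rw [nrmVal_neg hB]
          have r2 := (hRb x).2.1
          rw [nrm2_val hB] at r2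
          exact r2.trans (mul_le_mul (mul_le_mul_of_nonneg_right hK1le hs0.le) (hmRm x) (hmR0 x)
            (by positivity))
      have hnb : G.nrmVal x (b x) ≤ Bb := by
        rw [← nrm2_val hB]
        exact hbn x
      calc C3 * G.nrmVal x (anti20 (G.J x) (FQ x)) * G.nrmVal x (b x)
          ≤ max C3 0 * (t / 2 + 1 / (2 * t) * G.nrm2 (G.p20 (FR + FQ)) x ^ 2 + K * s * m x) *
              Bb := by
            refine mul_le_mul ?_ hnb (nrmVal_nonneg hB x _) ?_
            · exact mul_le_mul (le_max_left _ _) hn (nrmVal_nonneg hB x _) (le_max_right _ _)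
            · exact mul_nonneg (le_max_right _ _) ((nrmVal_nonneg hB x _).trans hn)
        _ = _ := by ring
    have imm : Integrable m G.vol := mavg_integrable hB _ _ _
    have i1 : Integrable
        (fun x => t / 2 + 1 / (2 * t) * G.nrm2 (G.p20 (FR + FQ)) x ^ 2) G.vol :=
      (integrable_const _).add (iN2.const_mul _)
    have hQs : |D.Q (G.p20 (S.ST s b))| ≤ max C3 0 * Bb *
        (t / 2 * G.vol.real univ + 1 / (2 * t) * (Ck * K ^ 2 / c * E s)) +
          max C3 0 * Bb * K * (max Cm 0 * D.mu.real univ) * s := by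
      have hq : G.pair FQ b = D.Q (G.p20 (S.ST s b)) := hFQp b hb
      rw [← hq, ← Real.norm_eq_abs]
      refine (norm_integral_le_of_norm_le ((i1.const_mul (max C3 0 * Bb)).add
        (imm.const_mul (max C3 0 * Bb * K * s))) (Eventually.of_forall fun x => hptb x)).trans ?_
      rw [integral_add' (i1.const_mul _) (imm.const_mul _), integral_const_mul, integral_const_mul,
        integral_add (integrable_const _) (iN2.const_mul _), integral_const, integral_const_mul,
        smul_eq_mul]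
      refine add_le_add ?_ ?_
      · rw [mul_comm (G.vol.real univ) (t / 2)]
        gcongr
      · have := (hCm D.mu (K1 * s) (by positivity) hK1s).trans
          (mul_le_mul_of_nonneg_right (le_max_left Cm 0) measureReal_nonneg)
        calc max C3 0 * Bb * K * s * ∫ x, m x ∂G.vol
            ≤ max C3 0 * Bb * K * s * (max Cm 0 * D.mu.real univ) :=
              mul_le_mul_of_nonneg_left this (by positivity)
          _ = _ := by ring
    have hdiff : |D.Q b - D.Q (G.p20 (S.ST s b))| ≤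
        max CQ 0 * (max Cp 0 * (max Capp 0 * G.hsum (NQ + 1) b)) * s := by
      have hsm : Smooth2 (b - S.ST s b) := hb.sub (S.smooth s hs0 hsS b hb)
      have e : D.Q b - D.Q (G.p20 (S.ST s b)) = D.Q (G.p20 (b - S.ST s b)) := by
        rw [← G.p20L_apply (b - S.ST s b), map_sub, map_sub, G.p20L_apply, G.p20L_apply,
          G.p20_of_anti hba]
      rw [e]
      obtain ⟨hp, hpa⟩ := hB.p20_smooth _ hsm
      calc |D.Q (G.p20 (b - S.ST s b))| ≤ CQ * G.hsum NQ (G.p20 (b - S.ST s b)) := hCQ _ hp hpa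
        _ ≤ max CQ 0 * (max Cp 0 * G.hsum NQ (b - S.ST s b)) :=
            mul_le_mul (le_max_left _ _) (((hCp _ hsm).1).trans
              (mul_le_mul_of_nonneg_right (le_max_left _ _) (hsum_nonneg _ _)))
              (hsum_nonneg _ _) (le_max_right _ _)
        _ ≤ max CQ 0 * (max Cp 0 * (max Capp 0 * s * G.hsum (NQ + 1) b)) := by
            gcongr
            exact (hCapp s hs0 hsS b hb).trans (mul_le_mul_of_nonneg_right
              (mul_le_mul_of_nonneg_right (le_max_left _ _) hs0.le) (hsum_nonneg _ _))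
        _ = _ := by ring
    have htri := abs_sub_abs_le_abs_sub (D.Q b) (D.Q (G.p20 (S.ST s b)))
    have hexp : a * s = max CQ 0 * (max Cp 0 * (max Capp 0 * G.hsum (NQ + 1) b)) * s +
        max C3 0 * Bb * K * (max Cm 0 * D.mu.real univ) * s := by rw [ha]; ring
    linarith
  -- let the scale, then `t`, tend to zero
  by_contra hne
  have hpos : 0 < |D.Q b| := abs_pos.2 hne
  set t := |D.Q b| / (2 * (max C3 0 * Bb * G.vol.real univ + 1)) with ht
  have hV0 : 0 ≤ max C3 0 * Bb * G.vol.real univ :=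
    mul_nonneg (mul_nonneg (le_max_right _ _) hBb0) measureReal_nonneg
  have ht0 : 0 < t := by positivity
  have hlim : Tendsto (fun s => a * s + max C3 0 * Bb *
      (t / 2 * G.vol.real univ + 1 / (2 * t) * (Ck * K ^ 2 / c * E s))) (𝓝[>] (0 : ℝ))
      (𝓝 (a * 0 + max C3 0 * Bb *
        (t / 2 * G.vol.real univ + 1 / (2 * t) * (Ck * K ^ 2 / c * 0)))) :=
    ((tendsto_id.mono_left nhdsWithin_le_nhds).const_mul a).add
      ((tendsto_const_nhds.add ((hEt.const_mul _).const_mul _)).const_mul _)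
  have hfin := ge_of_tendsto hlim (main t ht0)
  have hbound : max C3 0 * Bb * G.vol.real univ * t ≤ |D.Q b| / 2 := by
    calc max C3 0 * Bb * G.vol.real univ * t ≤ (max C3 0 * Bb * G.vol.real univ + 1) * t :=
          mul_le_mul_of_nonneg_right (by linarith) ht0.le
      _ = |D.Q b| / 2 := by rw [ht]; field_simp
  linarith

/-- The intersection module. -/
theorem intersection (hPoint : PointStatement.{u}) (hBase : BaseStatement.{u})
    (hCur : CurStatement.{u}) : IntersectionStatement.{u} :=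
  fun X _ _ _ _ _ _ _ G D S hdens hq hsplit =>
    partner_eq_zero (hPoint X G) (hBase X G) (hCur X G) D S hdens hq hsplit

end Vale.Agent.P204.Full.Final
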