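import Vale.Agent.P204.Full.Common.Local

/-!
Elementary properties of the fibre norm and of the split `W` pairing, for the intersection step.
-/

open scoped Manifold ContDiff Topology
open MeasureTheory Set Filter

noncomputable section

namespace Vale.Agent.P204.Full.Final

universe u

variable {X : Type u} [TopologicalSpace X] [ChartedSpace R4 X] [IsManifold 𝓘(ℝ, R4) ∞ X]
  [MeasurableSpace X] {G : Geo X}

theorem nrm2_val (hB : BaseFacts G) (θ : X → Bil) (x : X) :
    G.nrm2 θ x = G.nrmVal x (θ x) :=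
  G.nrm2_eq_nrmVal θ x fun i hi => (hB.rho_supp i x hi).1

theorem nrm2_nonneg (hB : BaseFacts G) (θ : X → Bil) (x : X) : 0 ≤ G.nrm2 θ x :=
  Finset.sum_nonneg fun i _ => mul_nonneg (hB.rho_nonneg i x) (norm_nonneg _)

theorem nrmVal_nonneg (hB : BaseFacts G) (x : X) (b : Bil) : 0 ≤ G.nrmVal x b :=
  nrm2_nonneg hB (fun _ => b) x

theorem nrm2_add_le (hB : BaseFacts G) (θ η : X → Bil) (x : X) :
    G.nrm2 (θ + η) x ≤ G.nrm2 θ x + G.nrm2 η x := by
  simp only [Geo.nrm2, ← Finset.sum_add_distrib]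
  refine Finset.sum_le_sum fun i _ => ?_
  rw [← mul_add]
  refine mul_le_mul_of_nonneg_left ?_ (hB.rho_nonneg i x)
  rw [view2_add]
  exact norm_add_le _ _

theorem nrmVal_add_le (hB : BaseFacts G) (x : X) (a b : Bil) :
    G.nrmVal x (a + b) ≤ G.nrmVal x a + G.nrmVal x b :=
  nrm2_add_le hB (fun _ => a) (fun _ => b) x

theorem nrm2_smul_fun (θ : X → Bil) (f : X → ℝ) (x : X)
    (hB : BaseFacts G) : G.nrm2 (fun z => f z • θ z) x = |f x| * G.nrm2 θ x := by
  simp only [Geo.nrm2, Finset.mul_sum]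
  refine Finset.sum_congr rfl fun i _ => ?_
  by_cases h : G.rho i x = 0
  · simp [h]
  · have hx := (hB.rho_supp i x h).1
    have e : view2 (G.c i) (fun z => f z • θ z) (G.c i x) =
        f x • view2 (G.c i) θ (G.c i x) := by
      simp only [view2, (G.c i).left_inv hx, pullBil_smul]
    rw [e, norm_smul, Real.norm_eq_abs]
    ring

theorem nrmVal_smul (hB : BaseFacts G) (x : X) (t : ℝ) (b : Bil) :
    G.nrmVal x (t • b) = |t| * G.nrmVal x b :=
  nrm2_smul_fun (fun _ => b) (fun _ => t) x hB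

theorem nrmVal_neg (hB : BaseFacts G) (x : X) (b : Bil) :
    G.nrmVal x (-b) = G.nrmVal x b := by
  rw [← neg_one_smul ℝ b, nrmVal_smul hB]
  simp

theorem inv_at {θ : X → Bil} (hθ : ∀ x, IsAlt (θ x)) (h : G.Inv θ) (x : X) : G.InvAt x (θ x) :=
  ⟨hθ x, G.inv_pull h x⟩

theorem anti_at {θ : X → Bil} (hθ : ∀ x, IsAlt (θ x)) (h : G.Anti θ) (x : X) :
    G.AntiAt x (θ x) :=
  ⟨hθ x, G.anti_pull h x⟩

theorem inv_smul_fun {θ : X → Bil} (h : G.Inv θ) (f : X → ℝ) :
    G.Inv (fun z => f z • θ z) := fun x u v => by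
  show f x * θ x (G.J x u) (G.J x v) = f x * θ x u v
  rw [h x u v]

theorem anti_smul_fun {θ : X → Bil} (h : G.Anti θ) (f : X → ℝ) :
    G.Anti (fun z => f z • θ z) := fun x u v => by
  show f x * θ x (G.J x u) (G.J x v) = -(f x * θ x u v)
  rw [h x u v]
  ring

theorem inv_sub {θ η : X → Bil} (h : G.Inv θ) (k : G.Inv η) : G.Inv (θ - η) := fun x u v => by
  show θ x (G.J x u) (G.J x v) - η x (G.J x u) (G.J x v) = θ x u v - η x u v
  rw [h x u v, k x u v]

/-- `W` splits along the two types. -/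
theorem W_split (hP : PointFacts G) (x : X) {a b : Bil} (ha : IsAlt a) (hb : IsAlt b) :
    G.W x a b = G.W x (inv11 (G.J x) a) (inv11 (G.J x) b) +
      G.W x (anti20 (G.J x) a) (anti20 (G.J x) b) := by
  have h1 := hP.W_inv_anti x _ _ (hP.inv11_at x a ha) (hP.anti20_at x b hb)
  have h2 := hP.W_inv_anti x _ _ (hP.inv11_at x b hb) (hP.anti20_at x a ha)
  conv_lhs => rw [← hP.split x a, ← hP.split x b]
  rw [G.W_add_left, G.W_add_right, G.W_add_right, h1, G.W_comm x (anti20 (G.J x) a), h2]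
  ring

end Vale.Agent.P204.Full.Final
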