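import Vale.Agent.P204.Full.Interfaces
import Vale.Agent.P204.Full.Final.Duality

/-!
Pointwise bounds for the smoothed currents, by duality.
-/

open scoped Manifold ContDiff Topology
open MeasureTheory Set Filter

noncomputable section

namespace Vale.Agent.P204.Full.Final

universe u

variable {X : Type u} [TopologicalSpace X] [T2Space X] [CompactSpace X] [ChartedSpace R4 X]
  [IsManifold 𝓘(ℝ, R4) ∞ X] [MeasurableSpace X] [BorelSpace X] {G : Geo X}

/-- Averaging is symmetric. -/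
theorem avg_symm (hB : BaseFacts G) (r : ℝ) {g h : X → ℝ} (hg : Integrable g G.vol)
    (hh : Integrable h G.vol) :
    Integrable (fun x => h x * G.avg r g x) G.vol ∧
      ∫ x, h x * G.avg r g x ∂G.vol = ∫ z, g z * G.avg r h z ∂G.vol := by
  have := secondCountable_base X
  have := hB.vol_finite
  let F : X × X → ℝ := {p : X × X | p.2 ∈ G.near r p.1}.indicator fun p => h p.1 * g p.2
  have hF : Integrable F (G.vol.prod G.vol) := (hh.mul_prod hg).indicator (near_measurable hB r)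
  have h1 : ∀ x, ∫ z, F (x, z) ∂G.vol = h x * ∫ z in G.near r x, g z ∂G.vol := by
    intro x
    rw [← integral_indicator (near_slice_measurable hB r x), ← integral_const_mul]
    congr 1
    funext z
    by_cases hz : z ∈ G.near r x
    · rw [indicator_of_mem hz]
      exact indicator_of_mem (show (x, z) ∈ {p : X × X | p.2 ∈ G.near r p.1} from hz) _
    · rw [indicator_of_notMem hz, mul_zero]
      exact indicator_of_notMem
        (show (x, z) ∉ {p : X × X | p.2 ∈ G.near r p.1} from hz) _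
  have h2 : ∀ z, ∫ x, F (x, z) ∂G.vol = g z * ∫ x in G.near r z, h x ∂G.vol := by
    intro z
    rw [← integral_indicator (near_slice_measurable hB r z), ← integral_const_mul]
    congr 1
    funext x
    by_cases hz : z ∈ G.near r x
    · have hz' := hB.near_symm r x z hz
      rw [indicator_of_mem hz', mul_comm (g z)]
      exact indicator_of_mem (show (x, z) ∈ {p : X × X | p.2 ∈ G.near r p.1} from hz) _
    · have hz' : x ∉ G.near r z := fun h => hz (hB.near_symm r z x h)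
      rw [indicator_of_notMem hz', mul_zero]
      exact indicator_of_notMem
        (show (x, z) ∉ {p : X × X | p.2 ∈ G.near r p.1} from hz) _
  have hl := hF.integral_prod_left
  simp_rw [h1] at hl
  have hsw := integral_integral_swap (f := fun x z => F (x, z)) (μ := G.vol) (ν := G.vol) hF
  simp_rw [h1, h2] at hsw
  have e1 : ∀ x, h x * G.avg r g x = (r ^ 4)⁻¹ * (h x * ∫ z in G.near r x, g z ∂G.vol) :=
    fun x => by simp only [Geo.avg]; ring
  have e2 : ∀ z, g z * G.avg r h z = (r ^ 4)⁻¹ * (g z * ∫ x in G.near r z, h x ∂G.vol) :=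
    fun z => by simp only [Geo.avg]; ring
  simp_rw [e1, e2]
  exact ⟨hl.const_mul _, by rw [integral_const_mul, integral_const_mul, hsw]⟩

/-- An integral against a function bounded on the support of a test form. -/
theorem tested_le (hB : BaseFacts G) {θ : X → Bil} (hθ : Smooth2 θ) {U : Set X}
    (hθU : ∀ z, z ∉ U → θ z = 0) {g : X → ℝ} {b : ℝ}
    (hgU : ∀ z ∈ U, g z ≤ b)
    (hint : Integrable (fun z => G.nrm2 θ z * g z) G.vol) :
    ∫ z, G.nrm2 θ z * g z ∂G.vol ≤ b * ∫ z, G.nrm2 θ z ∂G.vol := by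
  rw [← integral_const_mul]
  refine integral_mono hint
    ((integrable_of_cont hB (hB.nrm2_cont θ (hB.smooth_cont θ hθ))).const_mul _) fun z => ?_
  show G.nrm2 θ z * g z ≤ b * G.nrm2 θ z
  by_cases hz : z ∈ U
  · rw [mul_comm b]
    exact mul_le_mul_of_nonneg_left (hgU z hz) (nrm2_nonneg hB θ z)
  · have : G.nrm2 θ z = 0 := by
      rw [nrm2_val hB, hθU z hz, ← zero_smul ℝ (G.omega z), nrmVal_smul hB, abs_zero, zero_mul]
    simp [this]

/-- Averages at nearby points. -/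
theorem near_transfer (hB : BaseFacts G) (S : Smoother G) :
    ∃ K' s1 : ℝ, S.K ≤ K' ∧ 0 < s1 ∧ s1 ≤ S.s0 ∧ K' * s1 ≤ 1 ∧
      ∀ s x z, 0 < s → s ≤ s1 → z ∈ G.near (S.K * s) x →
        G.near (S.K * s) z ⊆ G.near (K' * s) x := by
  obtain ⟨C, r0, hC, hr0, htr⟩ := hB.near_trans
  have hK : 0 < S.K := lt_of_lt_of_le one_pos S.K_one
  have hK' : 0 < 2 * C * S.K := by positivity
  refine ⟨2 * C * S.K, min S.s0 (min (r0 / (2 * S.K)) (1 / (2 * C * S.K))), by nlinarith,
    lt_min S.s0_pos (lt_min (by positivity) (by positivity)), min_le_left _ _, ?_, ?_⟩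
  · calc 2 * C * S.K * min S.s0 (min (r0 / (2 * S.K)) (1 / (2 * C * S.K)))
        ≤ 2 * C * S.K * (1 / (2 * C * S.K)) :=
          mul_le_mul_of_nonneg_left ((min_le_right _ _).trans (min_le_right _ _)) hK'.le
      _ = 1 := by field_simp
  intro s x z hs hs1 hz y hy
  have hsr : s ≤ r0 / (2 * S.K) := hs1.trans ((min_le_right _ _).trans (min_le_left _ _))
  have hsum : S.K * s + S.K * s ≤ r0 := by
    rw [le_div_iff₀ (by positivity)] at hsr
    linarith
  have h := htr (S.K * s) (S.K * s) x z y (by positivity) (by positivity) hsum hz hy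
  refine near_mono (le_of_eq ?_) x h
  ring

omit [T2Space X] [CompactSpace X] [BorelSpace X] in
theorem mavg_transfer {K K' s : ℝ} (hK : 0 < K) (hK' : 0 < K') (hs : 0 < s) (μ : Measure X)
    [IsFiniteMeasure μ] {x z : X} (hsub : G.near (K * s) z ⊆ G.near (K' * s) x) :
    G.mavg μ (K * s) z ≤ (K' / K) ^ 4 * G.mavg μ (K' * s) x := by
  simp only [Geo.mavg]
  calc ((K * s) ^ 4)⁻¹ * μ.real (G.near (K * s) z)
      ≤ ((K * s) ^ 4)⁻¹ * μ.real (G.near (K' * s) x) :=
        mul_le_mul_of_nonneg_left (measureReal_mono hsub) (by positivity)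
    _ = (K' / K) ^ 4 * (((K' * s) ^ 4)⁻¹ * μ.real (G.near (K' * s) x)) := by
        field_simp

omit [T2Space X] [CompactSpace X] [BorelSpace X] in
theorem avg_transfer {K K' s : ℝ} (hK : 0 < K) (hK' : 0 < K') (hs : 0 < s) {h : X → ℝ}
    (hh : ∀ x, 0 ≤ h x) (hi : Integrable h G.vol) {x z : X}
    (hsub : G.near (K * s) z ⊆ G.near (K' * s) x) :
    G.avg (K * s) h z ≤ (K' / K) ^ 4 * G.avg (K' * s) h x := by
  simp only [Geo.avg]
  calc ((K * s) ^ 4)⁻¹ * ∫ y in G.near (K * s) z, h y ∂G.vol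
      ≤ ((K * s) ^ 4)⁻¹ * ∫ y in G.near (K' * s) x, h y ∂G.vol :=
        mul_le_mul_of_nonneg_left
          (setIntegral_mono_set hi.integrableOn (Eventually.of_forall hh) hsub.eventuallyLE)
          (by positivity)
    _ = (K' / K) ^ 4 * (((K' * s) ^ 4)⁻¹ * ∫ y in G.near (K' * s) x, h y ∂G.vol) := by
        field_simp

/-- Bounds for the smoothing of a positive current. -/
theorem current_bounds (hP : PointFacts G) (hB : BaseFacts G) (hC : CurFacts G) (S : Smoother G) :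
    ∃ C K' s1 : ℝ, 0 ≤ C ∧ 1 ≤ K' ∧ 0 < s1 ∧ s1 ≤ S.s0 ∧ K' * s1 ≤ 1 ∧
      ∀ (D : PosCur G) (s : ℝ), 0 < s → s ≤ s1 → ∀ F, Smooth2 F →
        (∀ θ, Smooth2 θ → G.pair F θ = D.P (S.ST s θ)) → ∀ x,
          G.nrm2 (G.p11 F) x ≤ C * G.mavg D.mu (K' * s) x ∧
          G.nrm2 (G.p20 F) x ≤ C * s * G.mavg D.mu (K' * s) x ∧
          G.PosAt x (G.p11 F x + (C * s ^ 2 * G.mavg D.mu (K' * s) x) • G.omega x) := by
  obtain ⟨Cb, hCb⟩ := hC.bound
  obtain ⟨Cp, hCp⟩ := S.pt_bound
  obtain ⟨Ca, hCa⟩ := S.pt_anti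
  obtain ⟨Cs, hCs⟩ := S.pt_pos
  obtain ⟨Ci, hCi⟩ := inv_part_le hP hB
  obtain ⟨Cn, hCn⟩ := anti_part_le hP hB
  obtain ⟨Cq, hCq⟩ := inv_part_pos hP hB
  obtain ⟨K', s1, hKK, hs1, hs10, hK1, htr⟩ := near_transfer hB S
  have hK : 0 < S.K := lt_of_lt_of_le one_pos S.K_one
  have hK' : 0 < K' := lt_of_lt_of_le hK hKK
  set Cf := (K' / S.K) ^ 4 with hCf
  have hCf0 : 0 ≤ Cf := by positivity
  refine ⟨max (max (max Ci 0 * (max Cb 0 * max Cp 0 * Cf))
    (max Cn 0 * (max Cb 0 * max Ca 0 * Cf))) (max Cq 0 * (max Cs 0 * Cf)), K', s1,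
    le_max_of_le_right (by positivity), le_trans S.K_one hKK, hs1, hs10, hK1, ?_⟩
  intro D s hs hss F hF hpair x
  have := D.finite_mu
  have := hB.vol_finite
  have hs0 : s ≤ S.s0 := hss.trans hs10
  have hU := (near_basis hB x (U := univ) univ_mem).2 (S.K * s) (by positivity)
  have hm : ∀ z ∈ G.near (S.K * s) x, G.mavg D.mu (S.K * s) z ≤ Cf * G.mavg D.mu (K' * s) x :=
    fun z hz => mavg_transfer hK hK' hs D.mu (htr s x z hs hss hz)
  set m := G.mavg D.mu (K' * s) x with hmdef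
  have hm0 : 0 ≤ m := mavg_nonneg _ _ _
  have hnint : ∀ θ, Smooth2 θ → Integrable (G.nrm2 θ) G.vol := fun θ hθ =>
    integrable_of_cont hB (hB.nrm2_cont θ (hB.smooth_cont θ hθ))
  have hprod : ∀ θ, Smooth2 θ →
      Integrable (fun z => G.nrm2 θ z * G.mavg D.mu (S.K * s) z) G.vol := fun θ hθ =>
    (hnint θ hθ).mul_bdd (mavg_measurable hB _ _).aestronglyMeasurable
      (Eventually.of_forall fun z => by
        rw [Real.norm_eq_abs, abs_of_nonneg (mavg_nonneg _ _ _)]
        exact mavg_le_univ _ _ _)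
  have havg : ∀ θ, Smooth2 θ → (∀ z, z ∉ G.near (S.K * s) x → θ z = 0) →
      ∫ z, G.avg (S.K * s) (G.nrm2 θ) z ∂D.mu ≤ Cf * m * ∫ z, G.nrm2 θ z ∂G.vol := by
    intro θ hθ hsupp
    rw [avg_integral_eq hB _ D.mu (hnint θ hθ)]
    exact tested_le hB hθ hsupp hm (hprod θ hθ)
  have hbd : ∀ η, Smooth2 η → |D.P η| ≤ max Cb 0 * ∫ z, G.nrm2 η z ∂D.mu := fun η hη =>
    (hCb D η (hB.smooth_cont η hη)).trans (mul_le_mul_of_nonneg_right (le_max_left _ _)
      (integral_nonneg fun z => nrm2_nonneg hB η z))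
  have hmono : ∀ (η θ : X → Bil) (c : ℝ), Smooth2 η → Smooth2 θ →
      (∀ z, G.nrm2 η z ≤ c * G.avg (S.K * s) (G.nrm2 θ) z) →
      ∫ z, G.nrm2 η z ∂D.mu ≤ c * ∫ z, G.avg (S.K * s) (G.nrm2 θ) z ∂D.mu := by
    intro η θ c hη hθ hpt
    rw [← integral_const_mul]
    exact integral_mono ((hB.nrm2_cont η (hB.smooth_cont η hη)).integrable_of_hasCompactSupport
      (HasCompactSupport.of_compactSpace _)) ((avg_integrable hB _ D.mu (hnint θ hθ)).const_mul _)
      hpt
  refine ⟨?_, ?_, ?_⟩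
  · refine (hCi F hF x _ hU (max Cb 0 * max Cp 0 * Cf * m) (by positivity) ?_).trans ?_
    · intro θ hθ _ hsupp
      have h1 := hbd _ (S.smooth s hs hs0 θ hθ)
      have h2 := hmono _ θ (max Cp 0) (S.smooth s hs hs0 θ hθ) hθ fun z =>
        (hCp s hs hs0 θ hθ z).trans (mul_le_mul_of_nonneg_right (le_max_left _ _)
          (avg_nonneg _ (fun y => nrm2_nonneg hB θ y) z))
      rw [hpair θ hθ]
      calc D.P (S.ST s θ) ≤ max Cb 0 * ∫ z, G.nrm2 (S.ST s θ) z ∂D.mu := (le_abs_self _).trans h1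
        _ ≤ max Cb 0 * (max Cp 0 * (Cf * m * ∫ z, G.nrm2 θ z ∂G.vol)) :=
            mul_le_mul_of_nonneg_left (h2.trans (mul_le_mul_of_nonneg_left (havg θ hθ hsupp)
              (le_max_right _ _))) (le_max_right _ _)
        _ = _ := by ring
    · calc Ci * (max Cb 0 * max Cp 0 * Cf * m)
          ≤ max Ci 0 * (max Cb 0 * max Cp 0 * Cf * m) :=
            mul_le_mul_of_nonneg_right (le_max_left _ _) (by positivity)
        _ = max Ci 0 * (max Cb 0 * max Cp 0 * Cf) * m := by ring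
        _ ≤ _ := mul_le_mul_of_nonneg_right ((le_max_left _ _).trans (le_max_left _ _)) hm0
  · refine (hCn F hF x _ hU (max Cb 0 * max Ca 0 * Cf * s * m) (by positivity) ?_).trans ?_
    · intro θ hθ hθa hsupp
      have hη := hB.p11_smooth _ (S.smooth s hs hs0 θ hθ)
      have h1 := hbd _ hη.1
      have h2 := hmono _ θ (max Ca 0 * s) hη.1 hθ fun z =>
        (hCa s hs hs0 θ hθ hθa z).trans (mul_le_mul_of_nonneg_right
          (mul_le_mul_of_nonneg_right (le_max_left _ _) hs.le)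
          (avg_nonneg _ (fun y => nrm2_nonneg hB θ y) z))
      rw [hpair θ hθ, hC.via_inv D _ (hB.smooth_cont _ (S.smooth s hs hs0 θ hθ))]
      calc D.P (G.p11 (S.ST s θ)) ≤ max Cb 0 * ∫ z, G.nrm2 (G.p11 (S.ST s θ)) z ∂D.mu :=
            (le_abs_self _).trans h1
        _ ≤ max Cb 0 * (max Ca 0 * s * (Cf * m * ∫ z, G.nrm2 θ z ∂G.vol)) :=
            mul_le_mul_of_nonneg_left (h2.trans (mul_le_mul_of_nonneg_left (havg θ hθ hsupp)
              (by positivity))) (le_max_right _ _)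
        _ = _ := by ring
    · calc Cn * (max Cb 0 * max Ca 0 * Cf * s * m)
          ≤ max Cn 0 * (max Cb 0 * max Ca 0 * Cf * s * m) :=
            mul_le_mul_of_nonneg_right (le_max_left _ _) (by positivity)
        _ = max Cn 0 * (max Cb 0 * max Ca 0 * Cf) * (s * m) := by ring
        _ ≤ _ := by
          rw [mul_assoc _ s m]
          exact mul_le_mul_of_nonneg_right ((le_max_right _ _).trans (le_max_left _ _))
            (by positivity)
  · have key := hCq F hF x _ hU (max Cs 0 * Cf * s ^ 2 * m) (by positivity) ?_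
    · set C := max (max (max Ci 0 * (max Cb 0 * max Cp 0 * Cf))
        (max Cn 0 * (max Cb 0 * max Ca 0 * Cf))) (max Cq 0 * (max Cs 0 * Cf)) with hCdef
      have hle : Cq * (max Cs 0 * Cf * s ^ 2 * m) ≤ C * s ^ 2 * m := by
        calc Cq * (max Cs 0 * Cf * s ^ 2 * m) ≤ max Cq 0 * (max Cs 0 * Cf * s ^ 2 * m) :=
              mul_le_mul_of_nonneg_right (le_max_left _ _) (by positivity)
          _ = max Cq 0 * (max Cs 0 * Cf) * (s ^ 2 * m) := by ring
          _ ≤ C * (s ^ 2 * m) := mul_le_mul_of_nonneg_right (le_max_right _ _) (by positivity)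
          _ = _ := by ring
      have hom := hP.omega_at x
      refine ⟨⟨(hP.inv11_at x _ (hF.1 x)).1.add (hom.1.1.smul _), ?_⟩, fun v => ?_⟩
      · rw [pullBil_add, pullBil_smul, hom.1.2]
        show pullBil (G.J x) (inv11 (G.J x) (F x)) + _ = _
        rw [(hP.inv11_at x _ (hF.1 x)).2]
        rfl
      · have h1 := key.2 v
        have h2 := mul_le_mul_of_nonneg_right hle (hom.2 v)
        show 0 ≤ G.p11 F x v (G.J x v) + C * s ^ 2 * m * G.omega x v (G.J x v)
        have h1' : 0 ≤ G.p11 F x v (G.J x v) +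
            Cq * (max Cs 0 * Cf * s ^ 2 * m) * G.omega x v (G.J x v) := h1
        linarith
    · intro θ hθ hθi hθp hsupp
      set f := fun z => max Cs 0 * s ^ 2 * G.avg (S.K * s) (G.nrm2 θ) z with hfdef
      have hfi : Integrable f D.mu := (avg_integrable hB _ D.mu (hnint θ hθ)).const_mul _
      have hf0 : ∀ z, 0 ≤ f z := fun z =>
        mul_nonneg (by positivity) (avg_nonneg _ (fun y => nrm2_nonneg hB θ y) z)
      have hlow := hC.lower D _ f (hB.smooth_cont _ (S.smooth s hs hs0 θ hθ)) hfi hf0 ?_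
      · rw [hpair θ hθ]
        refine le_trans ?_ hlow
        rw [neg_le_neg_iff]
        show ∫ z, max Cs 0 * s ^ 2 * G.avg (S.K * s) (G.nrm2 θ) z ∂D.mu ≤ _
        rw [integral_const_mul]
        calc max Cs 0 * s ^ 2 * ∫ z, G.avg (S.K * s) (G.nrm2 θ) z ∂D.mu
            ≤ max Cs 0 * s ^ 2 * (Cf * m * ∫ z, G.nrm2 θ z ∂G.vol) :=
              mul_le_mul_of_nonneg_left (havg θ hθ hsupp) (by positivity)
          _ = _ := by ring
      · intro z v
        refine le_trans ?_ (hCs s hs hs0 θ hθ hθi hθp z v)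
        rw [neg_le_neg_iff]
        have hg0 : 0 ≤ G.metric z v v := by
          show 0 ≤ G.omega z v (G.J z v)
          exact (hP.omega_at z).2 v
        refine mul_le_mul_of_nonneg_right ?_ hg0
        exact mul_le_mul_of_nonneg_right
          (mul_le_mul_of_nonneg_right (le_max_left _ _) (by positivity))
          (avg_nonneg _ (fun y => nrm2_nonneg hB θ y) z)

/-- Bounds for the smoothing of the partner. -/
theorem partner_bounds (hP : PointFacts G) (hB : BaseFacts G) (S : Smoother G) :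
    ∃ C K' s1 : ℝ, 0 ≤ C ∧ 1 ≤ K' ∧ 0 < s1 ∧ s1 ≤ S.s0 ∧ K' * s1 ≤ 1 ∧
      ∀ (D : Pair G) (h : X → ℝ), (∀ x, 0 ≤ h x) → Integrable h G.vol →
        (∀ b, Smooth2 b → G.Anti b → |D.Q b| ≤ ∫ x, h x * G.nrm2 b x ∂G.vol) →
        ∀ (s : ℝ), 0 < s → s ≤ s1 → ∀ F, Smooth2 F →
        (∀ θ, Smooth2 θ → G.pair F θ = D.Q (G.p20 (S.ST s θ))) → ∀ x,
          G.nrm2 (G.p11 F) x ≤ C * s * G.avg (K' * s) h x ∧
          G.nrm2 (G.p20 F) x ≤ C * G.avg (K' * s) h x := by
  obtain ⟨Cp, hCp⟩ := S.pt_bound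
  obtain ⟨Ce, hCe⟩ := S.pt_inv
  obtain ⟨Cpi, hCpi⟩ := hP.pi_bound
  obtain ⟨Ci, hCi⟩ := inv_part_le hP hB
  obtain ⟨Cn, hCn⟩ := anti_part_le hP hB
  obtain ⟨K', s1, hKK, hs1, hs10, hK1, htr⟩ := near_transfer hB S
  have hK : 0 < S.K := lt_of_lt_of_le one_pos S.K_one
  have hK' : 0 < K' := lt_of_lt_of_le hK hKK
  set Cf := (K' / S.K) ^ 4 with hCf
  have hCf0 : 0 ≤ Cf := by positivity
  refine ⟨max (max Ci 0 * (max Ce 0 * Cf)) (max Cn 0 * (max Cpi 0 * max Cp 0 * Cf)), K', s1,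
    le_max_of_le_right (by positivity), le_trans S.K_one hKK, hs1, hs10, hK1, ?_⟩
  intro D h hh0 hhi hQ s hs hss F hF hpair x
  have := hB.vol_finite
  have hs0 : s ≤ S.s0 := hss.trans hs10
  have hU := (near_basis hB x (U := univ) univ_mem).2 (S.K * s) (by positivity)
  set m := G.avg (K' * s) h x with hmdef
  have hm0 : 0 ≤ m := avg_nonneg _ hh0 _
  have hnint : ∀ θ, Smooth2 θ → Integrable (G.nrm2 θ) G.vol := fun θ hθ =>
    integrable_of_cont hB (hB.nrm2_cont θ (hB.smooth_cont θ hθ))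
  have main : ∀ (η θ : X → Bil) (c : ℝ), 0 ≤ c → Smooth2 η → G.Anti η → Smooth2 θ →
      (∀ z, z ∉ G.near (S.K * s) x → θ z = 0) →
      (∀ z, G.nrm2 η z ≤ c * G.avg (S.K * s) (G.nrm2 θ) z) →
      D.Q η ≤ c * (Cf * m) * ∫ z, G.nrm2 θ z ∂G.vol := by
    intro η θ c hc hη hηa hθ hsupp hpt
    obtain ⟨hi, heq⟩ := avg_symm hB (S.K * s) (hnint θ hθ) hhi
    have h1 : ∫ z, h z * G.nrm2 η z ∂G.vol ≤
        c * ∫ z, G.nrm2 θ z * G.avg (S.K * s) h z ∂G.vol := by
      rw [← heq, ← integral_const_mul]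
      refine integral_mono_of_nonneg (Eventually.of_forall fun z =>
        mul_nonneg (hh0 z) (nrm2_nonneg hB η z)) (hi.const_mul c)
        (Eventually.of_forall fun z => ?_)
      show h z * G.nrm2 η z ≤ c * (h z * G.avg (S.K * s) (G.nrm2 θ) z)
      calc h z * G.nrm2 η z ≤ h z * (c * G.avg (S.K * s) (G.nrm2 θ) z) :=
            mul_le_mul_of_nonneg_left (hpt z) (hh0 z)
        _ = _ := by ring
    obtain ⟨hi2, -⟩ := avg_symm hB (S.K * s) hhi (hnint θ hθ)
    have h2 : ∫ z, G.nrm2 θ z * G.avg (S.K * s) h z ∂G.vol ≤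
        Cf * m * ∫ z, G.nrm2 θ z ∂G.vol :=
      tested_le hB hθ hsupp
        (fun z hz => avg_transfer hK hK' hs hh0 hhi (htr s x z hs hss hz)) hi2
    calc D.Q η ≤ ∫ z, h z * G.nrm2 η z ∂G.vol := (le_abs_self _).trans (hQ η hη hηa)
      _ ≤ c * (Cf * m * ∫ z, G.nrm2 θ z ∂G.vol) := h1.trans (mul_le_mul_of_nonneg_left h2 hc)
      _ = _ := by ring
  constructor
  · refine (hCi F hF x _ hU (max Ce 0 * Cf * s * m) (by positivity) ?_).trans ?_
    · intro θ hθ hθi hsupp
      obtain ⟨hη, hηa⟩ := hB.p20_smooth _ (S.smooth s hs hs0 θ hθ)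
      rw [hpair θ hθ]
      refine (main _ θ (max Ce 0 * s) (by positivity) hη hηa hθ hsupp fun z =>
        (hCe s hs hs0 θ hθ hθi z).trans (mul_le_mul_of_nonneg_right
          (mul_le_mul_of_nonneg_right (le_max_left _ _) hs.le)
          (avg_nonneg _ (fun y => nrm2_nonneg hB θ y) z))).trans (le_of_eq ?_)
      ring
    · calc Ci * (max Ce 0 * Cf * s * m) ≤ max Ci 0 * (max Ce 0 * Cf * s * m) :=
            mul_le_mul_of_nonneg_right (le_max_left _ _) (by positivity)
        _ = max Ci 0 * (max Ce 0 * Cf) * (s * m) := by ring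
        _ ≤ _ := by
          rw [mul_assoc _ s m]
          exact mul_le_mul_of_nonneg_right (le_max_left _ _) (by positivity)
  · refine (hCn F hF x _ hU (max Cpi 0 * max Cp 0 * Cf * m) (by positivity) ?_).trans ?_
    · intro θ hθ _ hsupp
      have hsm := S.smooth s hs hs0 θ hθ
      obtain ⟨hη, hηa⟩ := hB.p20_smooth _ hsm
      rw [hpair θ hθ]
      refine (main _ θ (max Cpi 0 * max Cp 0) (by positivity) hη hηa hθ hsupp fun z => ?_).trans
        (le_of_eq ?_)
      · rw [nrm2_val hB]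
        refine ((hCpi z _ (hsm.1 z)).2).trans ?_
        rw [← nrm2_val hB]
        calc Cpi * G.nrm2 (S.ST s θ) z ≤ max Cpi 0 * G.nrm2 (S.ST s θ) z :=
              mul_le_mul_of_nonneg_right (le_max_left _ _) (nrm2_nonneg hB _ z)
          _ ≤ max Cpi 0 * (max Cp 0 * G.avg (S.K * s) (G.nrm2 θ) z) :=
              mul_le_mul_of_nonneg_left ((hCp s hs hs0 θ hθ z).trans
                (mul_le_mul_of_nonneg_right (le_max_left _ _)
                  (avg_nonneg _ (fun y => nrm2_nonneg hB θ y) z))) (le_max_right _ _)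
          _ = _ := by ring
      · ring
    · calc Cn * (max Cpi 0 * max Cp 0 * Cf * m) ≤ max Cn 0 * (max Cpi 0 * max Cp 0 * Cf * m) :=
            mul_le_mul_of_nonneg_right (le_max_left _ _) (by positivity)
        _ = max Cn 0 * (max Cpi 0 * max Cp 0 * Cf) * m := by ring
        _ ≤ _ := mul_le_mul_of_nonneg_right (le_max_right _ _) hm0

end Vale.Agent.P204.Full.Final
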